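import Vale.Agent.P273.H975.FDom

/-!
# P273, LIM-F: majorants and limits of the F-side in the charts of a region

`W = wreg R.n m` is the chart of the region `R` with eliminated gaps `m`.
-/

set_option linter.unusedSectionVars false
set_option linter.unusedSimpArgs false

noncomputable section

namespace Vale.Agent.P273.H975

open H95 H732 H973 Filter Set
open scoped Topology ContDiff

variable {R : Region} (m : ∀ k, Fin (R.n k + 1))

/-- the product over a neck -/
theorem prod_neck (k : Fin 3) (f : R.Gap → ℂ) :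
    (∏ g : R.Gap, if (wreg R.n m).nk g = k then f g else 1)
      = ∏ g : Fin (R.n k + 1), f ⟨k, g⟩ := by
  rw [Fintype.prod_sigma, Finset.prod_eq_single k]
  · exact Finset.prod_congr rfl fun g _ => if_pos rfl
  · intro k' _ hk
    exact Finset.prod_eq_one fun g _ => if_neg hk
  · intro h; exact absurd (Finset.mem_univ _) h

/-- the closed region is the box of the chart -/
theorem CR_eq_box (y0 : ℝ) (K0 : Set (R.Cm → ℂ)) :
    CR R y0 K0 = box (wreg R.n m) (fun _ => 1) (fun _ => Real.exp (-y0)) K0 := by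
  ext q
  simp only [CR, box, Set.mem_ofPred_eq, prod_neck m]

/-- **the chart of the region lies in the closed region** -/
theorem psi_mem_CR {p : (wreg R.n m).Co R.Cm} (hp : (wreg R.n m).Inr p) {y0 : ℝ} (hy0 : 0 ≤ y0)
    (hy : ∀ k, y0 ≤ p.2.2.1 k) {K0 : Set (R.Cm → ℂ)} (hs : p.2.2.2.2 ∈ K0) :
    (wreg R.n m).psi p ∈ CR R y0 K0 := by
  rw [CR_eq_box m]
  exact box_mono (wreg R.n m) (rho_le_one _ fun _ => hy0) (fun _ => le_rfl) subset_rfl
    (Inr.psi_mem (wreg R.n m) hp (y := fun _ => y0) (fun _ => hy0) hy hs)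

theorem psi_mem_KS {p : (wreg R.n m).Co R.Cm} (hp : (wreg R.n m).Inr p) {y0 : ℝ} (hy0 : 0 ≤ y0)
    (hy : ∀ k, y0 ≤ p.2.2.1 k) {K0 : Set (R.Cm → ℂ)} (hs : p.2.2.2.2 ∈ K0) {S : L → Bool} {δ : ℝ}
    (hsep : SepP R δ S (scl R ((wreg R.n m).psi p))) : (wreg R.n m).psi p ∈ KS R S y0 δ K0 :=
  ⟨psi_mem_CR m hp hy0 hy hs, hsep⟩

/-! ### majorants -/

open Classical in
/-- **majorant of the F-side in the coordinate frame**: `c` depends only on `y0`, `δ`, `K0` -/
theorem exists_majorant_FW (X : Ext) {S : L → Bool}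
    (hS : ∀ j, S j = true → (R.pl j).isRight = true) {y0 δ : ℝ} {K0 : Set (R.Cm → ℂ)}
    (hK : IsCompact K0) (hy : Real.exp (-y0) < 1 / 16)
    (hZ : ZoneOK R S (Real.exp (-y0) / 256) K0) (hδ : 0 < δ) :
    ∃ c, 0 ≤ c ∧ ∀ p : (wreg R.n m).Co R.Cm, (wreg R.n m).Inr p →
      (wreg R.n m).psi p ∈ KS R S y0 δ K0 → ∀ z : ℝ, 0 ≤ z → (∀ k, z ≤ p.2.2.1 k) →
      ∀ w : Fin 16 → (wreg R.n m).Dir R.Cm,
      |(wreg R.n m).pb (FW X R S) p (fun i => (wreg R.n m).vec (w i))|
        ≤ c * ((∏ f ∈ (wreg R.n m).touched w, Real.exp (-p.1 f)) *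
          (if (wreg R.n m).TB w then Real.exp (-(z / Fintype.card R.Gap)) else 1)) := by
  obtain ⟨c, h0, hc⟩ := exists_bound_KS X hS hK hy hZ hδ
  refine ⟨c, h0, fun p hp h1 z hz0 hz w => ?_⟩
  exact (wreg R.n m).F_bound_touched hp
    (fun k => (wreg R.n m).ul_nonneg hp k (hz0.trans (hz k)))
    (Inr.exp_ul_le (wreg R.n m) hp hz0 hz) _ (hc _ h1) w

/-- **majorant of the F-side for arbitrary frames** (Euler vectors) -/
theorem exists_majorant_frame_FW (X : Ext) {S : L → Bool}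
    (hS : ∀ j, S j = true → (R.pl j).isRight = true) {y0 δ : ℝ} {K0 : Set (R.Cm → ℂ)}
    (hK : IsCompact K0) (hy : Real.exp (-y0) < 1 / 16)
    (hZ : ZoneOK R S (Real.exp (-y0) / 256) K0) (hδ : 0 < δ) :
    ∃ c, 0 ≤ c ∧ ∀ p : (wreg R.n m).Co R.Cm,
      (wreg R.n m).psi p ∈ KS R S y0 δ K0 → ∀ v : Fin 16 → (wreg R.n m).Co R.Cm,
      |(wreg R.n m).pb (FW X R S) p v| ≤ c * ∏ i, ‖(wreg R.n m).dpsi p (v i)‖ := by
  obtain ⟨c, h0, hc⟩ := exists_bound_KS X hS hK hy hZ hδ
  refine ⟨c, h0, fun p h1 v => ?_⟩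
  rw [Reg.pb_apply, ← Real.norm_eq_abs]
  exact ((FW X R S ((wreg R.n m).psi p)).le_opNorm _).trans
    (mul_le_mul_of_nonneg_right (hc _ h1) (Finset.prod_nonneg fun i _ => norm_nonneg _))

/-! ### limits -/

variable {m}
variable {ι : Type} {l : Filter ι} {B : Set (wreg R.n m).Fr} {P : ι → (wreg R.n m).Co R.Cm}
  {p : (wreg R.n m).Co R.Cm}

/-- the limit point lies in the closed separated region -/
theorem qlim_mem_KS [l.NeBot] (h : (wreg R.n m).Lim l B P p) {S : L → Bool} {y0 δ : ℝ}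
    {K0 : Set (R.Cm → ℂ)} (hK : IsCompact K0) (hy : Real.exp (-y0) < 1 / 16)
    (hZ : ZoneOK R S (Real.exp (-y0) / 256) K0)
    (hP : ∀ᶠ n in l, (wreg R.n m).psi (P n) ∈ KS R S y0 δ K0) :
    (wreg R.n m).qlim B p ∈ KS R S y0 δ K0 :=
  (isCompact_KS δ hK hy hZ).isClosed.mem_of_tendsto h.psi hP

/-- **limit of the F-side in the coordinate frame** -/
theorem tendsto_FW [l.NeBot] (h : (wreg R.n m).Lim l B P p) (X : Ext) {S : L → Bool}
    (hS : ∀ j, S j = true → (R.pl j).isRight = true) {y0 δ : ℝ} {K0 : Set (R.Cm → ℂ)}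
    (hK : IsCompact K0) (hy : Real.exp (-y0) < 1 / 16)
    (hZ : ZoneOK R S (Real.exp (-y0) / 256) K0) (hδ : 0 < δ)
    (hP : ∀ᶠ n in l, (wreg R.n m).psi (P n) ∈ KS R S y0 δ K0)
    (w : Fin 16 → (wreg R.n m).Dir R.Cm) :
    Tendsto (fun n => (wreg R.n m).pb (FW X R S) (P n) (fun i => (wreg R.n m).vec (w i))) l
      (𝓝 (FW X R S ((wreg R.n m).qlim B p) (fun i => (wreg R.n m).vlim B p (w i)))) :=
  h.F_tendsto (continuousOn_FW_KS X hS hy hZ hδ _ (qlim_mem_KS h hK hy hZ hP)) hP w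

/-- the same with an arbitrary frame converging in the chart -/
theorem tendsto_FW_frame [l.NeBot] (h : (wreg R.n m).Lim l B P p) (X : Ext) {S : L → Bool}
    (hS : ∀ j, S j = true → (R.pl j).isRight = true) {y0 δ : ℝ} {K0 : Set (R.Cm → ℂ)}
    (hK : IsCompact K0) (hy : Real.exp (-y0) < 1 / 16)
    (hZ : ZoneOK R S (Real.exp (-y0) / 256) K0) (hδ : 0 < δ)
    (hP : ∀ᶠ n in l, (wreg R.n m).psi (P n) ∈ KS R S y0 δ K0)
    (v : ι → Fin 16 → (wreg R.n m).Co R.Cm) (v0 : Fin 16 → (wreg R.n m).Tg R.Cm)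
    (hv : ∀ i, Tendsto (fun n => (wreg R.n m).dpsi (P n) (v n i)) l (𝓝 (v0 i))) :
    Tendsto (fun n => (wreg R.n m).pb (FW X R S) (P n) (v n)) l
      (𝓝 (FW X R S ((wreg R.n m).qlim B p) v0)) :=
  h.F_tendsto_frame (continuousOn_FW_KS X hS hy hZ hδ _ (qlim_mem_KS h hK hy hZ hP)) hP v v0 hv

/-- **dichotomy at a limit point of the closed region**: eventually separated by `δ'`, or one fixed
pair of marks of the same type is eventually closer than `δ` (`δ' < δ`) -/
theorem sep_or_close (h : (wreg R.n m).Lim l B P p) {S : L → Bool} {y0 : ℝ}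
    {K0 : Set (R.Cm → ℂ)} (hy : Real.exp (-y0) < 1 / 16)
    (hZ : ZoneOK R S (Real.exp (-y0) / 256) K0)
    (hq : (wreg R.n m).qlim B p ∈ CR R y0 K0)
    (hP : ∀ᶠ n in l, (wreg R.n m).psi (P n) ∈ CR R y0 K0) {δ' δ : ℝ} (hδ : δ' < δ) :
    (∀ᶠ n in l, (wreg R.n m).psi (P n) ∈ KS R S y0 δ' K0) ∨
    (∃ i j : L, i ≠ j ∧ i.2 = j.2 ∧ (∀ k, ¬ (R.pl i = Sum.inl k ∧ R.pl j = Sum.inl k)) ∧
      ∀ᶠ n in l, Clo R S (scl R ((wreg R.n m).psi (P n))) i j < δ) ∨
    ∃ (i j : L) (k : Fin 3), R.pl i = Sum.inl k ∧ R.pl j = Sum.inl k ∧ i.2 = j.2 ∧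
      R.rk i < R.rk j ∧ ∀ᶠ n in l, Cln R (scl R ((wreg R.n m).psi (P n))) i j k < δ := by
  have hU := scl_mem_U0 (S := S) hy hZ hq
  have hlim : Tendsto (fun n => scl R ((wreg R.n m).psi (P n))) l
      (𝓝[U0 R S] (scl R ((wreg R.n m).qlim B p))) := by
    refine tendsto_nhdsWithin_iff.2 ⟨((scl R).continuous.tendsto _).comp h.psi, ?_⟩
    filter_upwards [hP] with n hn
    exact scl_mem_U0 hy hZ hn
  have hC : ∀ i j, Tendsto (fun n => Clo R S (scl R ((wreg R.n m).psi (P n))) i j) l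
      (𝓝 (Clo R S (scl R ((wreg R.n m).qlim B p)) i j)) := fun i j =>
    (continuousOn_Clo S i j _ hU).tendsto.comp hlim
  have hN : ∀ i j k, Tendsto (fun n => Cln R (scl R ((wreg R.n m).psi (P n))) i j k) l
      (𝓝 (Cln R (scl R ((wreg R.n m).qlim B p)) i j k)) := fun i j k =>
    ((continuous_Cln i j k).tendsto _).comp (hlim.mono_right nhdsWithin_le_nhds)
  by_cases h1 : ∀ i j : L, i ≠ j → i.2 = j.2 → (∀ k, ¬ (R.pl i = Sum.inl k ∧ R.pl j = Sum.inl k)) →
      δ' < Clo R S (scl R ((wreg R.n m).qlim B p)) i j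
  · by_cases h2 : ∀ (i j : L) (k : Fin 3), R.pl i = Sum.inl k → R.pl j = Sum.inl k → i.2 = j.2 →
        R.rk i < R.rk j → δ' < Cln R (scl R ((wreg R.n m).qlim B p)) i j k
    · left
      have e1 : ∀ᶠ n in l, ∀ i j : L, i ≠ j → i.2 = j.2 →
          (∀ k, ¬ (R.pl i = Sum.inl k ∧ R.pl j = Sum.inl k)) →
          δ' ≤ Clo R S (scl R ((wreg R.n m).psi (P n))) i j := by
        rw [eventually_all]; intro i
        rw [eventually_all]; intro j
        by_cases c1 : i ≠ j
        · by_cases c2 : i.2 = j.2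
          · by_cases c3 : ∀ k, ¬ (R.pl i = Sum.inl k ∧ R.pl j = Sum.inl k)
            · filter_upwards [(hC i j).eventually (lt_mem_nhds (h1 i j c1 c2 c3))] with n hn _ _ _
              exact hn.le
            · exact Eventually.of_forall fun n _ _ h => absurd h c3
          · exact Eventually.of_forall fun n _ h => absurd h c2
        · exact Eventually.of_forall fun n h => absurd h c1
      have e2 : ∀ᶠ n in l, ∀ (i j : L) (k : Fin 3), R.pl i = Sum.inl k → R.pl j = Sum.inl k →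
          i.2 = j.2 → R.rk i < R.rk j →
          δ' ≤ Cln R (scl R ((wreg R.n m).psi (P n))) i j k := by
        rw [eventually_all]; intro i
        rw [eventually_all]; intro j
        rw [eventually_all]; intro k
        by_cases c1 : R.pl i = Sum.inl k
        · by_cases c2 : R.pl j = Sum.inl k
          · by_cases c3 : i.2 = j.2
            · by_cases c4 : R.rk i < R.rk j
              · filter_upwards [(hN i j k).eventually (lt_mem_nhds (h2 i j k c1 c2 c3 c4))]
                  with n hn _ _ _ _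
                exact hn.le
              · exact Eventually.of_forall fun n _ _ _ h => absurd h c4
            · exact Eventually.of_forall fun n _ _ h => absurd h c3
          · exact Eventually.of_forall fun n _ h => absurd h c2
        · exact Eventually.of_forall fun n h => absurd h c1
      filter_upwards [hP, e1, e2] with n a b c
      exact ⟨a, b, c⟩
    · right; right
      push Not at h2
      obtain ⟨i, j, k, c1, c2, c3, c4, c5⟩ := h2
      exact ⟨i, j, k, c1, c2, c3, c4, (hN i j k).eventually (gt_mem_nhds (c5.trans_lt hδ))⟩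
  · right; left
    push Not at h1
    obtain ⟨i, j, c1, c2, c3, c5⟩ := h1
    exact ⟨i, j, c1, c2, fun k hk => c3 k hk.1 hk.2,
      (hC i j).eventually (gt_mem_nhds (c5.trans_lt hδ))⟩

/-! ### the wedge vanishes or the marks are separated -/

theorem mrk_injective : Function.Injective mrk := by
  intro a b h
  unfold mrk at h
  split_ifs at h with h1 h2 h2
  · have := congrArg Prod.fst h
    simp at this
    exact Fin.ext (by simpa using this)
  · exact absurd (congrArg Prod.snd h) (by simp)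
  · exact absurd (congrArg Prod.snd h) (by simp)
  · have := congrArg Prod.fst h
    simp at this
    exact Fin.ext (by omega)

theorem exists_mrk (j : L) : ∃ a : Fin 14, mrk a = j := by
  have h : Function.Bijective mrk := by
    rw [Fintype.bijective_iff_injective_and_card]
    exact ⟨mrk_injective, by simp⟩
  exact h.2 j

/-- **wedge zero or separated**: if marks of the same type closer than `δ` have the same form -/
theorem sep_of_wedge_ne {E' : Type*} [NormedAddCommGroup E'] [NormedSpace ℝ E'] {n : ℕ}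
    {T : MT} (hT : SymT T) (F : E' [⋀^Fin n]→L[ℝ] ℝ) (θ : Fin 14 → E' →L[ℝ] H4)
    {S : L → Bool} {p : R.Sp} {δ : ℝ}
    (h1 : ∀ a b : Fin 14, a ≠ b → (mrk a).2 = (mrk b).2 →
      (∀ k, ¬ (R.pl (mrk a) = Sum.inl k ∧ R.pl (mrk b) = Sum.inl k)) →
      Clo R S p (mrk a) (mrk b) < δ → θ a = θ b)
    (h2 : ∀ (a b : Fin 14) (k : Fin 3), R.pl (mrk a) = Sum.inl k → R.pl (mrk b) = Sum.inl k →
      (mrk a).2 = (mrk b).2 → R.rk (mrk a) < R.rk (mrk b) →
      Cln R p (mrk a) (mrk b) k < δ → θ a = θ b)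
    (hw : wedgeT F T θ ≠ 0) : SepP R δ S p := by
  constructor
  · intro i j hij ht hn
    by_contra hlt
    push Not at hlt
    obtain ⟨a, rfl⟩ := exists_mrk i
    obtain ⟨b, rfl⟩ := exists_mrk j
    have hab : a ≠ b := fun h => hij (by rw [h])
    exact hw (wedgeT_eq_zero_of_eq F hab (hT a b ht) (h1 a b hab ht hn hlt))
  · intro i j k hi hj ht hr
    by_contra hlt
    push Not at hlt
    obtain ⟨a, rfl⟩ := exists_mrk i
    obtain ⟨b, rfl⟩ := exists_mrk j
    have hab : a ≠ b := fun h => by rw [h] at hr; exact lt_irrefl _ hr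
    exact hw (wedgeT_eq_zero_of_eq F hab (hT a b ht) (h2 a b k hi hj ht hr hlt))

end Vale.Agent.P273.H975
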