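import Vale.Agent.P273.H732.Dil

/-!
# P273, LIM-CH-4: compactness of the closed region of a chart

`box R ρ r K0`: gaps with `‖τ g‖ ≤ ρ g`, products over the neck `k` of norm `≤ r k`, core part in
`K0`.  It is compact for compact `K0`, it contains the image of the region, and it contains all the
limit points `qlim B p`.  Hence a form continuous on it is bounded along the chart, and it has the
limits of `Lim.F_tendsto` there.
-/

set_option linter.unusedSectionVars false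
set_option linter.unusedSimpArgs false

noncomputable section

open scoped Topology ContDiff
open Filter
open Vale.Agent.P273.H732

namespace Vale.Agent.P273.H975

variable {K G : Type} {C : Type} (R : Reg K G)
variable [DecidableEq K] [DecidableEq G] [Fintype G] [Fintype K] [Fintype C] [DecidableEq C]

/-- the closed region in the family coordinates -/
def box (ρ : G → ℝ) (r : K → ℝ) (K0 : Set (C → ℂ)) : Set (R.Tg C) :=
  {q | (∀ g, ‖q.1 g‖ ≤ ρ g) ∧ (∀ k, ‖∏ g : G, if R.nk g = k then q.1 g else 1‖ ≤ r k) ∧ q.2 ∈ K0}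

/-- **the closed region is compact** -/
theorem isCompact_box (ρ : G → ℝ) (r : K → ℝ) {K0 : Set (C → ℂ)} (hK : IsCompact K0) :
    IsCompact (box R ρ r K0) := by
  have h1 : IsCompact ((Set.univ.pi fun g : G => Metric.closedBall (0 : ℂ) (ρ g)) ×ˢ K0) :=
    (isCompact_univ_pi fun g => isCompact_closedBall _ _).prod hK
  have h2 : IsClosed {q : R.Tg C | ∀ k, ‖∏ g : G, if R.nk g = k then q.1 g else 1‖ ≤ r k} := by
    simp only [Set.ofPred_forall]
    refine isClosed_iInter fun k => isClosed_le ?_ continuous_const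
    refine (continuous_finsetProd _ fun g _ => ?_).norm
    split_ifs
    · exact (continuous_apply g).comp continuous_fst
    · exact continuous_const
  have h3 : box R ρ r K0 = ((Set.univ.pi fun g : G => Metric.closedBall (0 : ℂ) (ρ g)) ×ˢ K0)
      ∩ {q : R.Tg C | ∀ k, ‖∏ g : G, if R.nk g = k then q.1 g else 1‖ ≤ r k} := by
    ext q
    simp only [box, Set.mem_ofPred_eq, Set.mem_inter_iff, Set.mem_prod, Set.mem_pi, Set.mem_univ,
      true_implies, mem_closedBall_zero_iff]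
    tauto
  rw [h3]
  exact h1.inter_right h2

theorem box_mono {ρ ρ' : G → ℝ} {r r' : K → ℝ} {K0 K1 : Set (C → ℂ)} (h1 : ∀ g, ρ g ≤ ρ' g)
    (h2 : ∀ k, r k ≤ r' k) (h3 : K0 ⊆ K1) : box R ρ r K0 ⊆ box R ρ' r' K1 := fun _ hq =>
  ⟨fun g => (hq.1 g).trans (h1 g), fun k => (hq.2.1 k).trans (h2 k), h3 hq.2.2⟩

/-- the norm of the product over a neck -/
theorem norm_prod_tau (p : R.Co C) (k : K) :
    ‖∏ g : G, if R.nk g = k then (R.psi p).1 g else 1‖ = Real.exp (-p.2.2.1 k) := by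
  have h := R.prod_tau p k
  have e : (∏ g : G, if R.nk g = k then (R.psi p).1 g else 1)
      = ∏ g : G, if R.nk g = k then R.tau p g else 1 := rfl
  rw [e, h, Complex.norm_exp]
  simp

/-- **the region lies in the closed region** (first form: all sizes nonnegative) -/
theorem psi_mem_box {ρ : G → ℝ} {r : K → ℝ} {K0 : Set (C → ℂ)} {p : R.Co C}
    (h1 : ∀ g, Real.exp (-R.ug p g) ≤ ρ g) (h2 : ∀ k, Real.exp (-p.2.2.1 k) ≤ r k)
    (h3 : p.2.2.2.2 ∈ K0) : R.psi p ∈ box R ρ r K0 := by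
  refine ⟨fun g => ?_, fun k => ?_, h3⟩
  · change ‖R.tau p g‖ ≤ ρ g
    rw [R.norm_tau]; exact h1 g
  · rw [norm_prod_tau]; exact h2 k

/-- the bounds of the gaps in the region: `1` for a free gap, `exp (-y / (number of gaps))` for the
eliminated gap of a neck of length at least `y` -/
def rho (y : K → ℝ) (g : G) : ℝ :=
  if g = R.last (R.nk g) then Real.exp (-(y (R.nk g) / Fintype.card G)) else 1

theorem card_pos (g : G) : (0 : ℝ) < Fintype.card G := by
  have : Nonempty G := ⟨g⟩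
  exact_mod_cast Fintype.card_pos

/-- **the region lies in the closed region** -/
theorem Inr.psi_mem {p : R.Co C} (hp : R.Inr p) {y : K → ℝ} (hy0 : ∀ k, 0 ≤ y k)
    (hy : ∀ k, y k ≤ p.2.2.1 k) {K0 : Set (C → ℂ)} (hs : p.2.2.2.2 ∈ K0) :
    R.psi p ∈ box R (rho R y) (fun k => Real.exp (-y k)) K0 := by
  refine psi_mem_box R (fun g => ?_) (fun k => Real.exp_le_exp.2 (neg_le_neg (hy k))) hs
  unfold rho
  split_ifs with h
  · rw [Real.exp_le_exp, neg_le_neg_iff]
    conv_rhs => rw [h]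
    rw [R.ug_last, div_le_iff₀ (card_pos g), mul_comm]
    exact (hy _).trans (R.y_le hp _ ((hy0 _).trans (hy _)))
  · rw [Real.exp_le_one_iff, neg_nonpos]
    have := hp.1 ⟨g, h⟩
    rwa [← R.ug_free] at this

theorem rho_le_one {y : K → ℝ} (hy0 : ∀ k, 0 ≤ y k) (g : G) : rho R y g ≤ 1 := by
  unfold rho
  split_ifs
  · rw [Real.exp_le_one_iff, neg_nonpos]
    exact div_nonneg (hy0 _) (card_pos g).le
  · exact le_rfl

theorem rho_nonneg (y : K → ℝ) (g : G) : 0 ≤ rho R y g := by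
  unfold rho
  split_ifs
  · exact (Real.exp_pos _).le
  · exact zero_le_one

/-- the eliminated gap is at least `y / (number of gaps)`, as a bound of its norm -/
theorem Inr.exp_ul_le {p : R.Co C} (hp : R.Inr p) {y : ℝ} (hy0 : 0 ≤ y) (hy : ∀ k, y ≤ p.2.2.1 k)
    (k : K) : Real.exp (-R.ul p k) ≤ Real.exp (-(y / Fintype.card G)) := by
  rw [Real.exp_le_exp, neg_le_neg_iff, div_le_iff₀ (card_pos (R.last k)), mul_comm]
  exact (hy k).trans (R.y_le hp k (hy0.trans (hy k)))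

/-- **the limit points lie in the closed region** -/
theorem qlim_mem_box {B : Set R.Fr} {p : R.Co C} {ρ : G → ℝ} {r : K → ℝ} {K0 : Set (C → ℂ)}
    (hρ : ∀ g, 0 ≤ ρ g) (hf : ∀ f : R.Fr, f ∉ B → Real.exp (-p.1 f) ≤ ρ f.1) (hr : ∀ k, 0 ≤ r k)
    (hs : p.2.2.2.2 ∈ K0) : R.qlim B p ∈ box R ρ r K0 := by
  classical
  refine ⟨fun g => ?_, fun k => ?_, hs⟩
  · simp only [Reg.qlim]
    split_ifs with h1 h2
    · simpa using hρ g
    · have h3 := R.norm_tau_free p ⟨g, h1⟩
      change ‖R.tau p g‖ = _ at h3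
      rw [h3]; exact hf _ h2
    · simpa using hρ g
  · have h0 : (∏ g : G, if R.nk g = k then (R.qlim B p).1 g else 1) = 0 := by
      refine Finset.prod_eq_zero (Finset.mem_univ (R.last k)) ?_
      rw [if_pos (R.nk_last k)]
      simp [Reg.qlim, R.nk_last]
    rw [h0, norm_zero]
    exact hr k

/-- in particular for a point with nonnegative free gaps -/
theorem qlim_mem_box' {B : Set R.Fr} {p : R.Co C} {y : K → ℝ} (hf : ∀ f : R.Fr, f ∉ B → 0 ≤ p.1 f)
    {K0 : Set (C → ℂ)} (hs : p.2.2.2.2 ∈ K0) :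
    R.qlim B p ∈ box R (rho R y) (fun k => Real.exp (-y k)) K0 := by
  refine qlim_mem_box R (rho_nonneg R y) (fun f hfB => ?_) (fun k => (Real.exp_pos _).le) hs
  have h : rho R y f.1 = 1 := if_neg f.2
  rw [h, Real.exp_le_one_iff, neg_nonpos]
  exact hf f hfB

/-! ### bounds -/

/-- **a function continuous on the closed region is bounded along the chart**; `S` is a closed set
of points where the function is needed (for instance marks which stay in their sectors) -/
theorem exists_bound {E : Type*} [SeminormedAddCommGroup E] {F : R.Tg C → E} {ρ : G → ℝ}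
    {r : K → ℝ} {K0 : Set (C → ℂ)} (hK : IsCompact K0) {S : Set (R.Tg C)} (hS : IsClosed S)
    (hF : ContinuousOn F (box R ρ r K0 ∩ S)) :
    ∃ c, 0 ≤ c ∧ (∀ q ∈ box R ρ r K0 ∩ S, ‖F q‖ ≤ c) := by
  obtain ⟨c, hc⟩ := ((isCompact_box R ρ r hK).inter_right hS).exists_bound_of_continuousOn hF
  exact ⟨max c 0, le_max_right _ _, fun q hq => (hc q hq).trans (le_max_left _ _)⟩

/-- the same over the points of the region -/
theorem exists_bound_inr {E : Type*} [SeminormedAddCommGroup E] {F : R.Tg C → E} {y : K → ℝ}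
    (hy0 : ∀ k, 0 ≤ y k) {K0 : Set (C → ℂ)} (hK : IsCompact K0) {S : Set (R.Tg C)}
    (hS : IsClosed S)
    (hF : ContinuousOn F (box R (rho R y) (fun k => Real.exp (-y k)) K0 ∩ S)) :
    ∃ c, 0 ≤ c ∧ ∀ p : R.Co C, R.Inr p → (∀ k, y k ≤ p.2.2.1 k) → p.2.2.2.2 ∈ K0 →
      R.psi p ∈ S → ‖F (R.psi p)‖ ≤ c := by
  obtain ⟨c, h0, hc⟩ := exists_bound R hK hS hF
  exact ⟨c, h0, fun p hp h1 h2 h3 => hc _ ⟨Inr.psi_mem R hp hy0 h1 h2, h3⟩⟩

/-- the same for a function continuous on an open set containing the closed region -/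
theorem exists_bound_nhds {E : Type*} [SeminormedAddCommGroup E] {F : R.Tg C → E} {y : K → ℝ}
    (hy0 : ∀ k, 0 ≤ y k) {K0 : Set (C → ℂ)} (hK : IsCompact K0) {U : Set (R.Tg C)}
    (hF : ContinuousOn F U) (hU : box R (rho R y) (fun k => Real.exp (-y k)) K0 ⊆ U) :
    ∃ c, 0 ≤ c ∧ ∀ p : R.Co C, R.Inr p → (∀ k, y k ≤ p.2.2.1 k) → p.2.2.2.2 ∈ K0 →
      ‖F (R.psi p)‖ ≤ c := by
  obtain ⟨c, h0, hc⟩ := exists_bound_inr R hy0 hK isClosed_univ
    (hF.mono (Set.inter_subset_left.trans hU))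
  exact ⟨c, h0, fun p hp h1 h2 => hc p hp h1 h2 (Set.mem_univ _)⟩

open Classical in
/-- **F-side majorant of the region**: uniform in the points of the region, the weights of the
touched gaps, and `exp (-y / (number of gaps))` if a base direction is touched -/
theorem exists_majorant {n : ℕ} {F : R.Tg C → R.Tg C [⋀^Fin n]→L[ℝ] ℝ}
    {y : K → ℝ} (hy0 : ∀ k, 0 ≤ y k) {K0 : Set (C → ℂ)} (hK : IsCompact K0) {S : Set (R.Tg C)}
    (hS : IsClosed S)
    (hF : ContinuousOn F (box R (rho R y) (fun k => Real.exp (-y k)) K0 ∩ S)) :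
    ∃ c, 0 ≤ c ∧ ∀ p : R.Co C, R.Inr p → (∀ k, y k ≤ p.2.2.1 k) → p.2.2.2.2 ∈ K0 →
      R.psi p ∈ S → ∀ z : ℝ, 0 ≤ z → (∀ k, z ≤ p.2.2.1 k) → ∀ w : Fin n → R.Dir C,
      |R.pb F p (fun i => R.vec (w i))| ≤ c * ((∏ f ∈ R.touched w, Real.exp (-p.1 f)) *
        (if R.TB w then Real.exp (-(z / Fintype.card G)) else 1)) := by
  obtain ⟨c, h0, hc⟩ := exists_bound_inr R hy0 hK hS hF
  refine ⟨c, h0, fun p hp h1 h2 h3 z hz0 hz w => ?_⟩
  exact R.F_bound_touched hp (fun k => R.ul_nonneg hp k ((hy0 k).trans (h1 k)))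
    (Inr.exp_ul_le R hp hz0 hz) _ (hc p hp h1 h2 h3) w

/-- the same with arbitrary frames (Euler vectors): only the norms of the images of the frame -/
theorem exists_majorant_frame {n : ℕ} {F : R.Tg C → R.Tg C [⋀^Fin n]→L[ℝ] ℝ}
    {y : K → ℝ} (hy0 : ∀ k, 0 ≤ y k) {K0 : Set (C → ℂ)} (hK : IsCompact K0) {S : Set (R.Tg C)}
    (hS : IsClosed S)
    (hF : ContinuousOn F (box R (rho R y) (fun k => Real.exp (-y k)) K0 ∩ S)) :
    ∃ c, 0 ≤ c ∧ ∀ p : R.Co C, R.Inr p → (∀ k, y k ≤ p.2.2.1 k) → p.2.2.2.2 ∈ K0 →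
      R.psi p ∈ S → ∀ v : Fin n → R.Co C, |R.pb F p v| ≤ c * ∏ i, ‖R.dpsi p (v i)‖ := by
  obtain ⟨c, h0, hc⟩ := exists_bound_inr R hy0 hK hS hF
  refine ⟨c, h0, fun p hp h1 h2 h3 v => ?_⟩
  rw [Reg.pb_apply, ← Real.norm_eq_abs]
  exact ((F (R.psi p)).le_opNorm _).trans
    (mul_le_mul_of_nonneg_right (hc p hp h1 h2 h3) (Finset.prod_nonneg fun i _ => norm_nonneg _))

/-! ### the region of the dilated points -/

open Classical in
/-- the limit region: the sizes of the gaps in `B` are smaller than the rest of the neck -/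
def InrB (B : Set R.Fr) (p : R.Co C) : Prop :=
  ∀ f ∈ B, p.1 f < p.2.2.1 (R.nk f.1) -
    ∑ f' : R.Fr, if f' ∈ B ∧ R.nk f'.1 = R.nk f.1 then p.1 f' else 0

/-- **the dilated points are eventually in the region** -/
theorem eventually_inr_dpt {B : Set R.Fr} {p : R.Co C} (hp : R.Pos B p) (hI : InrB R B p)
    (hf : ∀ f : R.Fr, f ∉ B → 0 ≤ p.1 f) : ∀ᶠ N : ℝ in atTop, R.Inr (R.dpt B N p) := by
  classical
  have h1 : ∀ᶠ N : ℝ in atTop, ∀ f : R.Fr, (R.dpt B N p).1 f ≤ R.ul (R.dpt B N p) (R.nk f.1) := by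
    rw [eventually_all]
    intro f
    by_cases hfB : f ∈ B
    · have h2 : Tendsto (fun N : ℝ => N * ((p.2.2.1 (R.nk f.1) -
          ∑ f' : R.Fr, if f' ∈ B ∧ R.nk f'.1 = R.nk f.1 then p.1 f' else 0) - p.1 f)) atTop atTop :=
        tendsto_id.atTop_mul_const (by have := hI f hfB; linarith)
      filter_upwards [h2.eventually_ge_atTop
        (∑ f' : R.Fr, if f' ∉ B ∧ R.nk f'.1 = R.nk f.1 then p.1 f' else 0)] with N hN
      rw [R.ul_dpt]
      simp only [Reg.dpt, if_pos hfB]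
      linarith
    · have h2 := (R.lim_dpt (ι := ℝ) (l := atTop) B tendsto_id hp).hl (R.nk f.1)
      filter_upwards [h2.eventually_ge_atTop (p.1 f)] with N hN
      simpa only [Reg.dpt, if_neg hfB, id] using hN
  filter_upwards [h1, eventually_ge_atTop (0 : ℝ)] with N h2 h3
  refine ⟨fun f => ?_, h2⟩
  by_cases hfB : f ∈ B
  · simp only [Reg.dpt, if_pos hfB]
    exact mul_nonneg h3 (hp.1 f hfB).le
  · simp only [Reg.dpt, if_neg hfB]
    exact hf f hfB

/-- **the dilated points are eventually not in the region** if one gap of `B` is larger than the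
rest of its neck, or a gap in `B` is negative, or the rest of a neck is negative -/
theorem eventually_not_inr_dpt {B : Set R.Fr} {p : R.Co C} {f : R.Fr} (hfB : f ∈ B)
    (h : p.2.2.1 (R.nk f.1) -
      (∑ f' : R.Fr, open Classical in if f' ∈ B ∧ R.nk f'.1 = R.nk f.1 then p.1 f' else 0) < p.1 f) :
    ∀ᶠ N : ℝ in atTop, ¬ R.Inr (R.dpt B N p) := by
  classical
  have h2 : Tendsto (fun N : ℝ => N * (p.1 f - (p.2.2.1 (R.nk f.1) -
      ∑ f' : R.Fr, if f' ∈ B ∧ R.nk f'.1 = R.nk f.1 then p.1 f' else 0))) atTop atTop :=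
    tendsto_id.atTop_mul_const (by linarith)
  filter_upwards [h2.eventually_gt_atTop
    (-∑ f' : R.Fr, if f' ∉ B ∧ R.nk f'.1 = R.nk f.1 then p.1 f' else 0)] with N hN hI
  have h3 := hI.2 f
  rw [R.ul_dpt] at h3
  simp only [Reg.dpt, if_pos hfB] at h3
  linarith

theorem eventually_not_inr_dpt_neg {B : Set R.Fr} {p : R.Co C} {f : R.Fr} (h : p.1 f < 0) :
    ∀ᶠ N : ℝ in atTop, ¬ R.Inr (R.dpt B N p) := by
  classical
  filter_upwards [eventually_gt_atTop (0 : ℝ)] with N hN hI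
  have h3 := hI.1 f
  simp only [Reg.dpt] at h3
  split_ifs at h3
  · exact absurd h3 (not_le.2 (mul_neg_of_pos_of_neg hN h))
  · exact absurd h3 (not_le.2 h)

/-- **the limit of the form at the dilated points, with continuity on the closed region** -/
theorem tendsto_pb_dpt {B : Set R.Fr} {p : R.Co C} (hp : R.Pos B p)
    (hI : InrB R B p) (hf : ∀ f : R.Fr, f ∉ B → 0 ≤ p.1 f) {n : ℕ}
    {F : R.Tg C → R.Tg C [⋀^Fin n]→L[ℝ] ℝ} {y : K → ℝ} (hy0 : ∀ k, 0 ≤ y k) {K0 : Set (C → ℂ)}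
    (hs : p.2.2.2.2 ∈ K0) (hyp : ∀ k, 0 < p.2.2.1 k)
    (hF : ContinuousOn F (box R (rho R y) (fun k => Real.exp (-y k)) K0)) (w : Fin n → R.Dir C) :
    Tendsto (fun N : ℝ => R.pb F (R.dpt B N p) (fun i => R.vec (w i))) atTop
      (𝓝 (F (R.qlim B p) (fun i => R.vlim B p (w i)))) := by
  classical
  refine R.F_tendsto_dpt B tendsto_id hp (hF _ (qlim_mem_box' R hf hs)) ?_ w
  have h1 : ∀ᶠ N : ℝ in atTop, ∀ k, y k ≤ (R.dpt B N p).2.2.1 k := by
    rw [eventually_all]
    intro k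
    have h2 : Tendsto (fun N : ℝ => N * p.2.2.1 k) atTop atTop :=
      tendsto_id.atTop_mul_const (hyp k)
    exact h2.eventually_ge_atTop (y k)
  filter_upwards [h1, eventually_inr_dpt R hp hI hf] with N h2 h3
  exact Inr.psi_mem R h3 hy0 h2 hs

end Vale.Agent.P273.H975
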