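import Vale.Agent.P273.H732.Conv
import Vale.Agent.P273.H975.Cpt

/-!
# P273, LIM-F: the F-side over the regions of 95's `Ext`

* `U0`: the conditions of `Region.dom` without the separation of the marks; sheets are continuous
  there;
* `SepP δ`: marks of the same type are separated by `δ`;
* `KS`: the closed region in unit gaps, core marks in a compact set `K0`, separated by `δ`: it is
  compact and its image under `scl` lies in `R.dom S`;
* `FW`: the form of the region in unit gaps; its bound, its majorants and its limits on `KS`.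
-/

set_option linter.unusedSectionVars false
set_option linter.unusedSimpArgs false

noncomputable section

namespace Vale.Agent.P273.H975

open H95 H732 H973 Filter Set
open scoped Topology ContDiff

/-! ### continuity of the sheets -/

theorem continuousAt_csq {u : ℂ} (hu : ‖u‖ < 1) : ContinuousAt csq (1 - u) := by
  have h : (1 - u) ∈ Complex.slitPlane := by
    rw [sub_eq_add_neg]
    exact Complex.mem_slitPlane_of_norm_lt_one (by rwa [norm_neg])
  exact continuousAt_cpow_const h

section Sheets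

variable (R : Region)

theorem continuous_gap (g : R.Gap) : Continuous fun p : R.Sp => p.1 g :=
  (continuous_apply g).comp continuous_fst

theorem continuous_eps (k : Fin 3) : Continuous fun p : R.Sp => R.eps p k :=
  continuous_finsetProd _ fun g _ => continuous_gap R ⟨k, g⟩

theorem continuous_prod_if (k : Fin 3) (P : Fin (R.n k + 1) → Prop) [DecidablePred P] :
    Continuous fun p : R.Sp => ∏ g : Fin (R.n k + 1), if P g then p.1 ⟨k, g⟩ else 1 := by
  refine continuous_finsetProd _ fun g _ => ?_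
  split_ifs
  · exact continuous_gap R ⟨k, g⟩
  · exact continuous_const

theorem continuous_XX (k : Fin 3) (i : ℕ) : Continuous fun p : R.Sp => R.XX p k i :=
  continuous_prod_if R k _

theorem continuous_YY (k : Fin 3) (i : ℕ) : Continuous fun p : R.Sp => R.YY p k i :=
  continuous_prod_if R k _

theorem continuous_pos (j : L) : Continuous fun p : R.Sp => R.pos p j := by
  rcases h : R.pl j with k | s
  · simp only [pos_neck R _ h]
    exact continuous_const.add
      (((continuous_XX R k _).add (continuous_YY R k _)).div_const 2)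
  · simp only [pos_core R _ h]
    exact (continuous_apply _).comp continuous_snd

/-- the conditions of `Region.dom` without the separation -/
def U0 (S : L → Bool) : Set R.Sp := {p |
  (∀ k, ‖R.eps p k‖ < 1 / 4096) ∧
  (∀ j k, R.pl j = Sum.inl k → ‖R.XX p k (R.rk j)‖ < 1 / 8 ∧ ‖R.YY p k (R.rk j)‖ < 1 / 8) ∧
  (∀ (j : L) (s : Bool), R.pl j = Sum.inr s → ∀ l,
    if S j then ‖R.eps p l * R.pos p j ^ 2‖ < ‖1 - ctr l * R.pos p j‖ ^ 2 / 4
    else ‖R.eps p l‖ < ‖R.pos p j - ctr l‖ ^ 2 / 4)}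

theorem two_le_norm_ctr {k l : Fin 3} (h : l ≠ k) : 2 ≤ ‖ctr k - ctr l‖ := by
  have h1 : ctr k - ctr l = ((2 * ((k : ℕ) : ℝ) - 2 * ((l : ℕ) : ℝ) : ℝ) : ℂ) := by
    unfold ctr; push_cast; ring
  rw [h1, Complex.norm_real, Real.norm_eq_abs]
  fin_cases k <;> fin_cases l <;> simp_all <;> norm_num [abs_le, le_abs]

variable {R}

theorem neck_far {S : L → Bool} {p : R.Sp} (hp : p ∈ U0 R S) {j : L} {k l : Fin 3}
    (hj : R.pl j = Sum.inl k) (hl : l ≠ k) : 1 < ‖R.pos p j - ctr l‖ := by
  obtain ⟨hX, hY⟩ := hp.2.1 j k hj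
  have h1 : ‖(R.XX p k (R.rk j) + R.YY p k (R.rk j)) / 2‖ < 1 / 8 := by
    rw [norm_div]
    have := norm_add_le (R.XX p k (R.rk j)) (R.YY p k (R.rk j))
    have h2 : ‖(2 : ℂ)‖ = 2 := by simp
    rw [h2]; linarith
  have h3 : R.pos p j - ctr l = (ctr k - ctr l) + (R.XX p k (R.rk j) + R.YY p k (R.rk j)) / 2 := by
    rw [pos_neck R p hj]; ring
  rw [h3]
  have h4 := norm_sub_norm_le (ctr k - ctr l) (-((R.XX p k (R.rk j) + R.YY p k (R.rk j)) / 2))
  rw [norm_neg, sub_neg_eq_add] at h4
  have h5 := two_le_norm_ctr hl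
  linarith

/-- the sheets are continuous on `U0` -/
theorem continuousOn_sht (S : L → Bool) (j : L) :
    ContinuousOn (fun p : R.Sp => R.sht S p j) (U0 R S) := by
  intro p hp
  refine ContinuousAt.continuousWithinAt ?_
  have hpos := (continuous_pos R j).continuousAt (x := p)
  rcases h : R.pl j with k | s
  · simp only [sht_neck R S _ h, gk]
    refine ContinuousAt.div_const ?_ 2
    refine ContinuousAt.mul ?_
      (((continuous_XX R k _).sub (continuous_YY R k _)).continuousAt)
    refine tendsto_finsetProd _ fun l _ => ?_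
    by_cases hl : l = k
    · simp only [if_pos hl]; exact tendsto_const_nhds
    · simp only [if_neg hl]
      have h1 := neck_far hp h hl
      have h2 : R.pos p j - ctr l ≠ 0 := fun h0 => by rw [h0] at h1; norm_num at h1
      have h3 : ContinuousAt (fun q : R.Sp => R.pos q j - ctr l) p := hpos.sub continuousAt_const
      refine h3.mul ?_
      refine ContinuousAt.comp (f := fun q : R.Sp => 1 - R.eps q l / (R.pos q j - ctr l) ^ 2)
        (g := csq) (continuousAt_csq ?_) ?_
      · rw [norm_div, norm_pow, div_lt_one (by positivity)]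
        have := hp.1 l
        nlinarith
      · exact continuousAt_const.sub
          (((continuous_eps R l).continuousAt).div (h3.pow 2) (pow_ne_zero 2 h2))
  · simp only [sht_core R S _ h]
    refine continuousAt_const.mul ?_
    have hc := hp.2.2 j s h
    by_cases hS : S j = true
    · simp only [hS, if_true] at hc ⊢
      simp only [gcw]
      refine tendsto_finsetProd _ fun l _ => ?_
      have h3 : ContinuousAt (fun q : R.Sp => 1 - ctr l * R.pos q j) p :=
        continuousAt_const.sub (continuousAt_const.mul hpos)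
      have h4 : 0 < ‖1 - ctr l * R.pos p j‖ ^ 2 := by
        have := (norm_nonneg _).trans_lt (hc l); linarith
      have h2 : 1 - ctr l * R.pos p j ≠ 0 := fun h0 => by simp [h0] at h4
      refine h3.mul ?_
      refine ContinuousAt.comp
        (f := fun q : R.Sp => 1 - R.eps q l * R.pos q j ^ 2 / (1 - ctr l * R.pos q j) ^ 2)
        (g := csq) (continuousAt_csq ?_) ?_
      · rw [norm_div, norm_pow, div_lt_one h4]
        have := hc l
        linarith
      · exact continuousAt_const.sub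
          ((((continuous_eps R l).continuousAt).mul (hpos.pow 2)).div (h3.pow 2)
            (pow_ne_zero 2 h2))
    · simp only [hS, Bool.false_eq_true, if_false] at hc ⊢
      simp only [gc]
      refine tendsto_finsetProd _ fun l _ => ?_
      have h3 : ContinuousAt (fun q : R.Sp => R.pos q j - ctr l) p := hpos.sub continuousAt_const
      have h4 : 0 < ‖R.pos p j - ctr l‖ ^ 2 := by
        have := (norm_nonneg _).trans_lt (hc l); linarith
      have h2 : R.pos p j - ctr l ≠ 0 := fun h0 => by simp [h0] at h4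
      refine h3.mul ?_
      refine ContinuousAt.comp (f := fun q : R.Sp => 1 - R.eps q l / (R.pos q j - ctr l) ^ 2)
        (g := csq) (continuousAt_csq ?_) ?_
      · rw [norm_div, norm_pow, div_lt_one h4]
        have := hc l
        linarith
      · exact continuousAt_const.sub
          (((continuous_eps R l).continuousAt).div (h3.pow 2) (pow_ne_zero 2 h2))

variable (R)

/-! ### separation -/

/-- closeness of two marks which are not in the same neck -/
def Clo (S : L → Bool) (p : R.Sp) (i j : L) : ℝ :=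
  if S i = S j then ‖R.pos p i - R.pos p j‖ + ‖R.sht S p i - R.sht S p j‖
  else ‖R.pos p i * R.pos p j - 1‖ + ‖R.sht S p j - R.sht S p i * R.pos p j ^ 3‖

/-- closeness of two marks of the neck `k` -/
def Cln (p : R.Sp) (i j : L) (k : Fin 3) : ℝ :=
  ‖(∏ g : Fin (R.n k + 1), (if R.rk i < (g : ℕ) ∧ (g : ℕ) ≤ R.rk j then p.1 ⟨k, g⟩ else 1)) - 1‖

/-- marks of the same type are separated by `δ` -/
def SepP (δ : ℝ) (S : L → Bool) (p : R.Sp) : Prop :=
  (∀ i j : L, i ≠ j → i.2 = j.2 → (∀ k, ¬ (R.pl i = Sum.inl k ∧ R.pl j = Sum.inl k)) →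
    δ ≤ Clo R S p i j) ∧
  ∀ (i j : L) (k : Fin 3), R.pl i = Sum.inl k → R.pl j = Sum.inl k → i.2 = j.2 →
    R.rk i < R.rk j → δ ≤ Cln R p i j k

variable {R}

theorem continuousOn_Clo (S : L → Bool) (i j : L) :
    ContinuousOn (fun p : R.Sp => Clo R S p i j) (U0 R S) := by
  have hi := (continuous_pos R i).continuousOn (s := U0 R S)
  have hj := (continuous_pos R j).continuousOn (s := U0 R S)
  unfold Clo
  split_ifs
  · exact (hi.sub hj).norm.add ((continuousOn_sht S i).sub (continuousOn_sht S j)).norm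
  · exact ((hi.mul hj).sub continuousOn_const).norm.add
      ((continuousOn_sht S j).sub ((continuousOn_sht S i).mul (hj.pow 3))).norm

theorem continuous_Cln (i j : L) (k : Fin 3) : Continuous fun p : R.Sp => Cln R p i j k := by
  unfold Cln
  exact ((continuous_prod_if R k _).sub continuous_const).norm

theorem clo_eq_zero_of_same {S : L → Bool} {p : R.Sp} {i j : L}
    (h : Same (S i) (R.pos p i) (R.sht S p i) (S j) (R.pos p j) (R.sht S p j)) :
    Clo R S p i j = 0 := by
  unfold Same at h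
  unfold Clo
  split_ifs with h1
  · rw [if_pos h1] at h
    simp [h.1, h.2]
  · rw [if_neg h1] at h
    simp [h.1, h.2]

/-- `U0` and separation give the domain of 95 -/
theorem mem_dom {S : L → Bool} {p : R.Sp} (h0 : p ∈ U0 R S) {δ : ℝ} (hδ : 0 < δ)
    (hs : SepP R δ S p) : p ∈ R.dom S := by
  refine ⟨h0.1, h0.2.1, h0.2.2, ?_, ?_⟩
  · intro i j hij ht hn hsame
    have := hs.1 i j hij ht hn
    rw [clo_eq_zero_of_same hsame] at this
    linarith
  · intro i j k hi hj ht hr h1
    have := hs.2 i j k hi hj ht hr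
    unfold Cln at this
    rw [h1] at this
    simp at this
    linarith

theorem dom_subset_U0 (S : L → Bool) : R.dom S ⊆ U0 R S := fun _ h => ⟨h.1, h.2.1, h.2.2.1⟩

/-- the separated points are relatively closed -/
theorem isClosed_sep {S : L → Bool} (δ : ℝ) {D : Set R.Sp} (hD : IsClosed D) (hDU : D ⊆ U0 R S) :
    IsClosed (D ∩ {p | SepP R δ S p}) := by
  have h1 : D ∩ {p | SepP R δ S p} =
      (⋂ i : L, ⋂ j : L, ⋂ (_ : i ≠ j), ⋂ (_ : i.2 = j.2),
        ⋂ (_ : ∀ k, ¬ (R.pl i = Sum.inl k ∧ R.pl j = Sum.inl k)),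
          D ∩ (fun p => Clo R S p i j) ⁻¹' Ici δ) ∩
      ((⋂ i : L, ⋂ j : L, ⋂ k : Fin 3, ⋂ (_ : R.pl i = Sum.inl k), ⋂ (_ : R.pl j = Sum.inl k),
        ⋂ (_ : i.2 = j.2), ⋂ (_ : R.rk i < R.rk j), (fun p => Cln R p i j k) ⁻¹' Ici δ) ∩ D) := by
    ext p
    simp only [SepP, mem_inter_iff, mem_iInter, mem_preimage, mem_Ici]
    constructor
    · rintro ⟨hD, h⟩
      exact ⟨fun i j h1 h2 h3 => ⟨hD, h.1 i j h1 h2 h3⟩,
        fun i j k h1 h2 h3 h4 => h.2 i j k h1 h2 h3 h4, hD⟩
    · rintro ⟨ha, hb, hD⟩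
      exact ⟨hD, fun i j h1 h2 h3 => (ha i j h1 h2 h3).2, hb⟩
  rw [h1]
  refine IsClosed.inter ?_ (IsClosed.inter ?_ hD)
  · refine isClosed_iInter fun i => isClosed_iInter fun j => isClosed_iInter fun _ =>
      isClosed_iInter fun _ => isClosed_iInter fun _ => ?_
    exact ((continuousOn_Clo S i j).mono hDU).preimage_isClosed_of_isClosed hD isClosed_Ici
  · refine isClosed_iInter fun i => isClosed_iInter fun j => isClosed_iInter fun k =>
      isClosed_iInter fun _ => isClosed_iInter fun _ => isClosed_iInter fun _ =>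
      isClosed_iInter fun _ => ?_
    exact isClosed_Ici.preimage (continuous_Cln i j k)

/-! ### the closed separated region in unit gaps -/

variable (R)

/-- the condition on the core marks, `c` = bound of the `ε_k` -/
def ZoneOK (S : L → Bool) (c : ℝ) (K0 : Set (R.Cm → ℂ)) : Prop :=
  ∀ z ∈ K0, ∀ (j : R.Cm) (l : Fin 3),
    if S j.1 then c * ‖z j‖ ^ 2 < ‖1 - ctr l * z j‖ ^ 2 / 4 else c < ‖z j - ctr l‖ ^ 2 / 4

/-- the closed region in unit gaps -/
def CR (y0 : ℝ) (K0 : Set (R.Cm → ℂ)) : Set R.Sp :=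
  {q | (∀ g, ‖q.1 g‖ ≤ 1) ∧ (∀ k, ‖∏ g : Fin (R.n k + 1), q.1 ⟨k, g⟩‖ ≤ Real.exp (-y0)) ∧
    q.2 ∈ K0}

/-- the closed separated region in unit gaps -/
def KS (S : L → Bool) (y0 δ : ℝ) (K0 : Set (R.Cm → ℂ)) : Set R.Sp :=
  CR R y0 K0 ∩ {q | SepP R δ S (scl R q)}

variable {R}

theorem isCompact_CR (y0 : ℝ) {K0 : Set (R.Cm → ℂ)} (hK : IsCompact K0) :
    IsCompact (CR R y0 K0) := by
  have h1 : IsCompact ((Set.univ.pi fun _ : R.Gap => Metric.closedBall (0 : ℂ) 1) ×ˢ K0) :=
    (isCompact_univ_pi fun g => isCompact_closedBall _ _).prod hK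
  have h2 : IsClosed {q : R.Sp | ∀ k, ‖∏ g : Fin (R.n k + 1), q.1 ⟨k, g⟩‖ ≤ Real.exp (-y0)} := by
    simp only [Set.ofPred_forall]
    exact isClosed_iInter fun k => isClosed_le
      (continuous_finsetProd _ fun g _ => continuous_gap R ⟨k, g⟩).norm continuous_const
  have h3 : CR R y0 K0 = ((Set.univ.pi fun _ : R.Gap => Metric.closedBall (0 : ℂ) 1) ×ˢ K0)
      ∩ {q : R.Sp | ∀ k, ‖∏ g : Fin (R.n k + 1), q.1 ⟨k, g⟩‖ ≤ Real.exp (-y0)} := by
    ext q
    simp only [CR, Set.mem_ofPred_eq, Set.mem_inter_iff, Set.mem_prod, Set.mem_pi, Set.mem_univ,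
      true_implies, mem_closedBall_zero_iff]
    tauto
  rw [h3]
  exact h1.inter_right h2

theorem norm_prod_if_le {q : R.Sp} (hq : ∀ g, ‖q.1 g‖ ≤ 1) (k : Fin 3)
    (P : Fin (R.n k + 1) → Prop) [DecidablePred P] :
    ‖∏ g : Fin (R.n k + 1), if P g then q.1 ⟨k, g⟩ else 1‖ ≤ 1 := by
  rw [norm_prod]
  refine Finset.prod_le_one (fun g _ => norm_nonneg _) fun g _ => ?_
  split_ifs
  · exact hq _
  · simp

/-- the closed region lies in `U0` -/
theorem scl_mem_U0 {S : L → Bool} {y0 : ℝ} {K0 : Set (R.Cm → ℂ)}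
    (hy : Real.exp (-y0) < 1 / 16) (hZ : ZoneOK R S (Real.exp (-y0) / 256) K0) {q : R.Sp}
    (hq : q ∈ CR R y0 K0) : scl R q ∈ U0 R S := by
  obtain ⟨h1, h2, h3⟩ := hq
  have he : ∀ k, ‖R.eps (scl R q) k‖ ≤ Real.exp (-y0) / 256 := by
    intro k
    rw [eps_scl, norm_mul]
    have h4 := h2 k
    have h5 : ‖((1 / 16 : ℂ)) ^ 2‖ = 1 / 256 := by norm_num
    rw [h5]; linarith
  refine ⟨fun k => ?_, fun j k hj => ?_, fun j s hj l => ?_⟩
  · have := he k
    linarith
  · have hr : R.rk j < R.n k := R.rk_lt j k hj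
    have h6 : ‖(1 / 16 : ℂ)‖ = 1 / 16 := by norm_num
    constructor
    · rw [XX_scl R _ k hr, norm_mul, h6]
      have := norm_prod_if_le h1 k (fun g => (g : ℕ) ≤ R.rk j)
      linarith
    · rw [YY_scl R _ k hr, norm_mul, h6]
      have := norm_prod_if_le h1 k (fun g => R.rk j < (g : ℕ))
      linarith
  · have h7 : R.pos (scl R q) j = q.2 ⟨j, by simp [hj]⟩ := by
      rw [pos_core R _ hj, scl_apply]
    have h8 := hZ q.2 h3 ⟨j, by simp [hj]⟩ l
    rw [h7]
    by_cases hS : S j = true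
    · simp only [hS, if_true] at h8 ⊢
      rw [norm_mul, norm_pow]
      exact (mul_le_mul_of_nonneg_right (he l) (by positivity)).trans_lt h8
    · simp only [hS, Bool.false_eq_true, if_false] at h8 ⊢
      exact (he l).trans_lt h8

/-- **the closed separated region lies in the domain** -/
theorem scl_mem_dom {S : L → Bool} {y0 δ : ℝ} {K0 : Set (R.Cm → ℂ)}
    (hy : Real.exp (-y0) < 1 / 16) (hZ : ZoneOK R S (Real.exp (-y0) / 256) K0) (hδ : 0 < δ)
    {q : R.Sp} (hq : q ∈ KS R S y0 δ K0) : scl R q ∈ R.dom S :=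
  mem_dom (scl_mem_U0 hy hZ hq.1) hδ hq.2

/-- **the closed separated region is compact** -/
theorem isCompact_KS {S : L → Bool} {y0 : ℝ} (δ : ℝ) {K0 : Set (R.Cm → ℂ)} (hK : IsCompact K0)
    (hy : Real.exp (-y0) < 1 / 16) (hZ : ZoneOK R S (Real.exp (-y0) / 256) K0) :
    IsCompact (KS R S y0 δ K0) := by
  have h0 : IsCompact (CR R y0 K0) := isCompact_CR y0 hK
  have h1 : IsCompact (scl R '' CR R y0 K0) := h0.image (scl R).continuous
  have h2 : IsClosed ((scl R '' CR R y0 K0) ∩ {p | SepP R δ S p}) := by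
    refine isClosed_sep (S := S) δ h1.isClosed ?_
    rintro _ ⟨q, hq, rfl⟩
    exact scl_mem_U0 hy hZ hq
  have h3 : KS R S y0 δ K0 = CR R y0 K0 ∩ (scl R ⁻¹' ((scl R '' CR R y0 K0) ∩ {p | SepP R δ S p})) := by
    ext q
    constructor
    · rintro ⟨ha, hb⟩
      exact ⟨ha, ⟨q, ha, rfl⟩, hb⟩
    · rintro ⟨ha, _, hb⟩
      exact ⟨ha, hb⟩
  rw [h3]
  exact h0.inter_right (h2.preimage (scl R).continuous)

/-! the zones of 852: near marks outside the discs of radius `d0`, far marks `‖w‖ ≤ 1 / R1` -/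

variable (R)

def zone (S : L → Bool) (d0 R1 : ℝ) : Set (R.Cm → ℂ) :=
  Set.univ.pi fun j : R.Cm => if S j.1 then Metric.closedBall (0 : ℂ) R1⁻¹
    else Metric.closedBall (0 : ℂ) R1 ∩ {z | ∀ l, d0 ≤ ‖z - ctr l‖}

variable {R}

theorem isCompact_zone (S : L → Bool) (d0 R1 : ℝ) : IsCompact (zone R S d0 R1) := by
  refine isCompact_univ_pi fun j => ?_
  split_ifs
  · exact isCompact_closedBall _ _
  · refine (isCompact_closedBall _ _).inter_right ?_
    simp only [Set.ofPred_forall]
    exact isClosed_iInter fun l => isClosed_le continuous_const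
      (continuous_id.sub continuous_const).norm

theorem norm_ctr_le (l : Fin 3) : ‖ctr l‖ ≤ 11 / 2 := by
  have h1 : ctr l = ((2 * ((l : ℕ) : ℝ) + 3 / 2 : ℝ) : ℂ) := by
    unfold ctr; push_cast; ring
  rw [h1, Complex.norm_real, Real.norm_eq_abs]
  fin_cases l <;> norm_num [abs_le]

theorem zoneOK {S : L → Bool} {d0 R1 c : ℝ} (hR : 11 ≤ R1) (hc1 : c < 1)
    (hc : c < d0 ^ 2 / 4) (hd : 0 < d0) : ZoneOK R S c (zone R S d0 R1) := by
  intro z hz j l
  have h := hz j (Set.mem_univ _)
  by_cases hS : S j.1 = true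
  · simp only [hS, if_true, mem_closedBall_zero_iff] at h ⊢
    have h1 : ‖z j‖ ≤ 1 / 11 := h.trans (by
      rw [inv_eq_one_div]; exact one_div_le_one_div_of_le (by norm_num) hR)
    have h2 : ‖ctr l * z j‖ ≤ 1 / 2 := by
      rw [norm_mul]
      calc ‖ctr l‖ * ‖z j‖ ≤ 11 / 2 * (1 / 11) :=
            mul_le_mul (norm_ctr_le l) h1 (norm_nonneg _) (by norm_num)
        _ = 1 / 2 := by norm_num
    have h3 := norm_sub_norm_le (1 : ℂ) (ctr l * z j)
    rw [norm_one] at h3
    have h4 : 1 / 2 ≤ ‖1 - ctr l * z j‖ := by linarith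
    have h5 : ‖z j‖ ^ 2 ≤ 1 / 121 := by
      nlinarith [norm_nonneg (z j)]
    nlinarith [norm_nonneg (z j)]
  · simp only [hS, Bool.false_eq_true, if_false, Set.mem_inter_iff, Set.mem_ofPred_eq] at h ⊢
    have h1 := h.2 l
    nlinarith

/-! ### the form of the region in unit gaps -/

/-- the form of the region in unit gaps -/
def FW (X : Ext) (R : Region) (S : L → Bool) (q : R.Sp) : Alt 16 R.Sp :=
  (X.H R S (scl R q)).compContinuousLinearMap (scl R)

theorem continuousOn_FW (X : Ext) {S : L → Bool}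
    (hS : ∀ j, S j = true → (R.pl j).isRight = true) :
    ContinuousOn (FW X R S) (scl R ⁻¹' R.dom S) := by
  have h1 : ContinuousOn (X.H R S) (R.dom S) := (X.hreg R S hS).1.continuousOn
  have h2 : ContinuousOn (fun q => X.H R S (scl R q)) (scl R ⁻¹' R.dom S) :=
    h1.comp (scl R).continuous.continuousOn (fun q hq => hq)
  exact (ContinuousAlternatingMap.compContinuousLinearMapCLM (scl R)).continuous.comp_continuousOn h2

theorem continuousOn_FW_KS (X : Ext) {S : L → Bool}
    (hS : ∀ j, S j = true → (R.pl j).isRight = true) {y0 δ : ℝ} {K0 : Set (R.Cm → ℂ)}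
    (hy : Real.exp (-y0) < 1 / 16) (hZ : ZoneOK R S (Real.exp (-y0) / 256) K0) (hδ : 0 < δ) :
    ContinuousOn (FW X R S) (KS R S y0 δ K0) :=
  (continuousOn_FW X hS).mono fun _ hq => scl_mem_dom hy hZ hδ hq

/-- **the form is bounded on the closed separated region** -/
theorem exists_bound_KS (X : Ext) {S : L → Bool}
    (hS : ∀ j, S j = true → (R.pl j).isRight = true) {y0 δ : ℝ} {K0 : Set (R.Cm → ℂ)}
    (hK : IsCompact K0) (hy : Real.exp (-y0) < 1 / 16)
    (hZ : ZoneOK R S (Real.exp (-y0) / 256) K0) (hδ : 0 < δ) :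
    ∃ c, 0 ≤ c ∧ ∀ q ∈ KS R S y0 δ K0, ‖FW X R S q‖ ≤ c := by
  obtain ⟨c, hc⟩ := (isCompact_KS δ hK hy hZ).exists_bound_of_continuousOn
    (continuousOn_FW_KS X hS hy hZ hδ)
  exact ⟨max c 0, le_max_right _ _, fun q hq => (hc q hq).trans (le_max_left _ _)⟩

end Sheets

end Vale.Agent.P273.H975
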