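import Vale.Agent.P273.H975.Bd2
import Vale.Agent.P273.H182.DomF

/-!
# P273, LIM-BD: the product of the costs over the frame, and the bounds BdT, BdA
-/

set_option linter.unusedSectionVars false
set_option linter.unusedSimpArgs false

noncomputable section

namespace Vale.Agent.P273.H975

open H95 H732 H973 H562 Filter Set
open scoped Topology ContDiff

section Prod

variable {R : H95.Region} {m : ∀ k, Fin (R.n k + 1)}

/-- the two directions of a mark -/
def fdm (R : H95.Region) (m : ∀ k, Fin (R.n k + 1)) (j : L) (c : Bool) : Fd R m :=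
  match h : R.pl j with
  | Sum.inl k => if c then .ph (frE R.n m ⟨k, rkF R h⟩) else .u (frE R.n m ⟨k, rkF R h⟩)
  | Sum.inr _ => if c then .im ⟨j, by simp [h]⟩ else .re ⟨j, by simp [h]⟩

theorem fdm_neck {j : L} {k : Fin 3} (h : R.pl j = Sum.inl k) (c : Bool) :
    fdm R m j c = if c then .ph (frE R.n m ⟨k, rkF R h⟩) else .u (frE R.n m ⟨k, rkF R h⟩) := by
  unfold fdm
  split
  · rename_i k' h'
    rw [h] at h'
    cases h'
    rfl
  · rename_i s h'
    rw [h] at h'
    cases h'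

theorem fdm_core {j : L} {s : Bool} (h : R.pl j = Sum.inr s) (c : Bool) :
    fdm R m j c = if c then .im ⟨j, by simp [h]⟩ else .re ⟨j, by simp [h]⟩ := by
  unfold fdm
  split
  · rename_i k' h'
    rw [h] at h'
    cases h'
  · rfl

theorem fr_neck {j : L} {k : Fin 3} (h : R.pl j = Sum.inl k) (c : Bool) :
    H573.fr R m j c = if c then (W R m).vec (.ph (frE R.n m ⟨k, rkF R h⟩))
      else -(W R m).vec (.u (frE R.n m ⟨k, rkF R h⟩)) := by
  unfold H573.fr
  split
  · rename_i k' h'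
    rw [h] at h'
    cases h'
    rfl
  · rename_i s h'
    rw [h] at h'
    cases h'

theorem fr_core {j : L} {s : Bool} (h : R.pl j = Sum.inr s) (c : Bool) :
    H573.fr R m j c = if c then (W R m).vec (.im ⟨j, by simp [h]⟩)
      else (W R m).vec (.re ⟨j, by simp [h]⟩) := by
  unfold H573.fr
  split
  · rename_i k' h'
    rw [h] at h'
    cases h'
  · rfl

theorem fr_frm (p : Co R m) (j : L) (c : Bool) :
    H573.fr R m j c = (fdm R m j c).v p ∨ H573.fr R m j c = -(fdm R m j c).v p := by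
  rcases h : R.pl j with k | s
  · rw [fr_neck h, fdm_neck h]
    cases c
    · right; simp [Fd.v]
    · left; simp [Fd.v]
  · rw [fr_core h, fdm_core h]
    cases c
    · left; simp [Fd.v]
    · left; simp [Fd.v]

/-- the directions of the frame -/
def fd28 (R : H95.Region) (m : ∀ k, Fin (R.n k + 1)) (i : Fin 28) : Fd R m :=
  fdm R m (mrk ⟨i / 2, by omega⟩) (decide ((i : ℕ) % 2 = 1))

def fd30 (R : H95.Region) (m : ∀ k, Fin (R.n k + 1)) (a b : Fd R m) : Fin (16 + 14) → Fd R m :=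
  Fin.append (m := 28) (n := 2) (fd28 R m) ![a, b]

theorem frm30 (p : Co R m) (a b : Fd R m) :
    Frm p (fd30 R m a b) (H573.fr30 R m (a.v p) (b.v p)) := by
  intro l
  refine Fin.addCases (m := 28) (n := 2) (fun i => ?_) (fun i => ?_) l
  · simp only [fd30, H573.fr30, Fin.append_left]
    exact fr_frm p _ _
  · simp only [fd30, H573.fr30, Fin.append_right]
    left
    fin_cases i <;> rfl

/-- the index of a direction -/
def ix28 (i : Fin 28) : Fin 14 × Bool := (⟨i / 2, by omega⟩, decide ((i : ℕ) % 2 = 1))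

theorem ix28_bijective : Function.Bijective ix28 := by
  rw [Fintype.bijective_iff_injective_and_card]
  refine ⟨fun a b h => ?_, by simp⟩
  have h1 : (a : ℕ) / 2 = b / 2 := congrArg (fun x : Fin 14 × Bool => (x.1 : ℕ)) h
  have h2 : decide ((a : ℕ) % 2 = 1) = decide ((b : ℕ) % 2 = 1) := congrArg Prod.snd h
  rw [decide_eq_decide] at h2
  exact Fin.ext (by omega)

theorem mrk_bijective : Function.Bijective mrk := ⟨mrk_injective, exists_mrk⟩

theorem prod_ix28 {M : Type*} [CommMonoid M] (g : L → Bool → M) :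
    ∏ i : Fin 28, g (mrk (ix28 i).1) (ix28 i).2 = ∏ j : L, g j true * g j false := by
  rw [ix28_bijective.prod_comp (fun x : Fin 14 × Bool => g (mrk x.1) x.2), Fintype.prod_prod_type,
    ← mrk_bijective.prod_comp]
  refine Finset.prod_congr rfl fun a _ => ?_
  rw [Fintype.prod_bool]

/-- the marks of the necks are the free gaps -/
def mkg (R : H95.Region) (j : {j : L // (R.pl j).isLeft = true}) : Σ k, Fin (R.n k) :=
  ⟨(R.pl j.1).getLeft j.2, rkF R (Sum.eq_left_getLeft_of_isLeft j.2)⟩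

theorem mkg_eq (R : H95.Region) (j : {j : L // (R.pl j).isLeft = true}) {k : Fin 3}
    (h : R.pl j.1 = Sum.inl k) : mkg R j = ⟨k, rkF R h⟩ := by
  obtain ⟨j, hj⟩ := j
  have h1 : (R.pl j).getLeft hj = k := by
    simp only [h, Sum.getLeft_inl]
  unfold mkg
  subst h1
  rfl

theorem mkg_bijective (R : H95.Region) : Function.Bijective (mkg R) := by
  constructor
  · intro a b h
    obtain ⟨k, hk⟩ := Sum.isLeft_iff.1 a.2
    obtain ⟨k', hk'⟩ := Sum.isLeft_iff.1 b.2
    rw [mkg_eq R a hk, mkg_eq R b hk'] at h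
    have h1 : k = k' := congrArg Sigma.fst h
    subst h1
    have h2 : rkF R hk = rkF R hk' := by simpa using h
    exact Subtype.ext (R.rk_inj _ _ k hk hk' (congrArg Fin.val h2))
  · rintro ⟨k, g⟩
    have hb : Function.Bijective (fun j : {j // R.pl j = Sum.inl k} =>
        (⟨R.rk j.1, by rw [n_eq]; exact R.rk_lt j.1 k j.2⟩ :
          Fin (Fintype.card {j // R.pl j = Sum.inl k}))) :=
      (Fintype.bijective_iff_injective_and_card _).2 ⟨fun a b h => by
        apply Subtype.ext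
        exact R.rk_inj a.1 b.1 k a.2 b.2 (congrArg Fin.val h), by simp⟩
    obtain ⟨j, hj⟩ := hb.2 ⟨g, by rw [n_eq]; exact g.2⟩
    refine ⟨⟨j.1, by rw [j.2]; rfl⟩, ?_⟩
    rw [mkg_eq R _ j.2]
    have h1 : R.rk j.1 = (g : ℕ) := congrArg (fun x : Fin _ => (x : ℕ)) hj
    congr 1
    exact Fin.ext h1

/-- **the product of the costs of the frame** -/
theorem prod_fd28 (p : Co R m) (c : Fd R m → ℝ) (h1 : ∀ f, c (.u f) * c (.ph f) = qf p f)
    (h2 : ∀ s, c (.re s) = 1) (h3 : ∀ s, c (.im s) = 1) :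
    ∏ i, c (fd28 R m i) = ∏ f, qf p f := by
  have e1 : ∏ i, c (fd28 R m i) = ∏ j : L, c (fdm R m j true) * c (fdm R m j false) :=
    prod_ix28 fun j b => c (fdm R m j b)
  rw [e1, ← Fintype.prod_subtype_mul_prod_subtype (fun j : L => (R.pl j).isLeft = true)]
  have e2 : ∏ j : {j : L // ¬(R.pl j).isLeft = true},
      c (fdm R m j true) * c (fdm R m j false) = 1 := by
    refine Finset.prod_eq_one fun j _ => ?_
    rcases h : R.pl j.1 with k | s
    · exact absurd (by rw [h]; rfl) j.2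
    · rw [fdm_core h, fdm_core h]
      simp [h2, h3]
  have e3 : ∏ j : {j : L // (R.pl j).isLeft = true},
      c (fdm R m j true) * c (fdm R m j false) = ∏ f, qf p f := by
    rw [← Equiv.prod_comp (frE R.n m), ← (mkg_bijective R).prod_comp]
    refine Finset.prod_congr rfl fun j _ => ?_
    obtain ⟨k, hk⟩ := Sum.isLeft_iff.1 j.2
    rw [mkg_eq R j hk, fdm_neck hk, fdm_neck hk, ← h1]
    simp [mul_comm]
  rw [e2, e3, mul_one]

theorem prod_fd30 (p : Co R m) (c : Fd R m → ℝ) (h1 : ∀ f, c (.u f) * c (.ph f) = qf p f)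
    (h2 : ∀ s, c (.re s) = 1) (h3 : ∀ s, c (.im s) = 1) (a b : Fd R m) :
    ∏ i, c (fd30 R m a b i) = (∏ f, qf p f) * (c a * c b) := by
  have e : ∏ i : Fin (28 + 2), c (fd30 R m a b i) = (∏ f, qf p f) * (c a * c b) := by
    rw [Fin.prod_univ_add]
    simp only [fd30, Fin.append_left, Fin.append_right]
    rw [prod_fd28 p c h1 h2 h3, Fin.prod_univ_two]
    rfl
  exact e

theorem cA_mul (i : Fin 3) {N y : ℝ} {p : Co R m} (f : (W R m).Fr) :
    cA i N y p (.u f) * cA i N y p (.ph f) = qf p f := by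
  have h : 0 ≤ qf p f := (Real.exp_pos _).le.trans (le_max_left _ _)
  exact Real.mul_self_sqrt h

theorem cT_mul {N : ℝ} {p : Co R m} (f : (W R m).Fr) :
    cT N p (.u f) * cT N p (.ph f) = qf p f := by
  have h : 0 ≤ qf p f := (Real.exp_pos _).le.trans (le_max_left _ _)
  exact Real.mul_self_sqrt h

end Prod

/-! ### the statements of 573 -/

theorem ix_eq (i : Fin 3) (h : 2 * (i : ℕ) < 5) : (⟨2 * i, h⟩ : Fin 5) = H422.ix i := by
  fin_cases i <;> rfl

/-- **the bound on the tori, one `N₀` for all `T`** -/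
theorem bdT_strong (X : Ext) {κ : Fin 3 → Fin 3 → ℝ} {Θ : Gauge} (h : Asy κ Θ) :
    ∃ N₀ : ℝ, 1 ≤ N₀ ∧ ∀ T : MT, SymT T → H573.WtT 9 T → ∃ C : ℝ, 0 ≤ C ∧
      ∀ R m (far : R.Cm → Bool) (N : ℝ), N₀ ≤ N → ∀ α : Fin 3 → ℝ, (∀ k, -7 ≤ α k ∧ α k ≤ 1) →
        ∀ x ∈ H573.domF R m far (H573.yT N) α, ∀ i j : Fin 3,
          |H573.OmR R m X Θ T (H573.Sx R far) (H573.mk R m (H573.yT N) α x)
            (H573.fr30 R m ((W R m).vec (.al i)) ((W R m).vec (.al j)))| ≤
            C * ∏ f, max (Real.exp (-x.1.1 f)) (1 / N) := by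
  obtain ⟨A, K, δ, N₀, D⟩ := exists_dat X h
  refine ⟨N₀, by linarith [D.hN], fun T hs hT => ⟨|H422.KK 16 0 T A (3 * K)|, abs_nonneg _, ?_⟩⟩
  intro R m far N hN α hα x hx i j
  have hN100 : 100 ≤ N := D.hN.trans hN
  have hN0 : 0 < N := by linarith
  have hq : ∀ f, qf (H573.mk R m (H573.yT N) α x) f = max (Real.exp (-x.1.1 f)) (1 / N) :=
    fun f => rfl
  rcases H182.adm_or_zero X Θ T hx (fun k => by change (64 : ℝ) ≤ N; linarith)
    (N₀ := N₀) (fun k => hN) hα with hp | h0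
  · have hfr : Frm (H573.mk R m (H573.yT N) α x) (fd30 R m (.al i) (.al j))
        (H573.fr30 R m ((W R m).vec (.al i)) ((W R m).vec (.al j))) := frm30 _ (.al i) (.al j)
    have h1 := D.tor (T := T) hs (kill_of_wt hT) (H182.farOk_Sx R far) hp (by linarith : (1 : ℝ) ≤ N)
      (fun k => rfl) hfr
    rw [prod_fd30 (H573.mk R m (H573.yT N) α x) (cT N _) (fun f => cT_mul f) (fun _ => rfl)
      (fun _ => rfl)] at h1
    refine h1.trans (le_of_eq ?_)
    have e : cT N (H573.mk R m (H573.yT N) α x) (.al i) *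
        cT N (H573.mk R m (H573.yT N) α x) (.al j) = N⁻¹ := by
      simp only [cT]
      rw [← mul_inv, Real.mul_self_sqrt hN0.le]
    rw [e]
    have e2 : N * N⁻¹ = 1 := mul_inv_cancel₀ hN0.ne'
    calc |H422.KK 16 0 T A (3 * K)| * N * ((∏ f, qf (H573.mk R m (H573.yT N) α x) f) * N⁻¹)
        = |H422.KK 16 0 T A (3 * K)| * (∏ f, qf (H573.mk R m (H573.yT N) α x) f) * (N * N⁻¹) := by
          ring
      _ = _ := by rw [e2, mul_one]; rfl
  · rw [h0]
    have e : (0 : Alt (16 + 14) (Co R m))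
        (H573.fr30 R m ((W R m).vec (.al i)) ((W R m).vec (.al j))) = 0 := rfl
    rw [e, abs_zero]
    exact mul_nonneg (abs_nonneg _) (Finset.prod_nonneg fun f _ =>
      (Real.exp_pos _).le.trans (le_max_left _ _))

/-- **(S4a)** -/
theorem bdT (X : Ext) {κ : Fin 3 → Fin 3 → ℝ} {Θ : Gauge} (h : Asy κ Θ) : H573.BdT X Θ := by
  obtain ⟨N₀, h1, h2⟩ := bdT_strong X h
  intro T hs hT
  obtain ⟨C, _, hC⟩ := h2 T hs hT
  exact ⟨C, N₀, h1, hC⟩

/-- the factor of the annulus -/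
theorem ann_factor {N Y : ℝ} (hN : 0 < N) (hY : 0 < Y) :
    √N / (N * Y) * (√(N * Y))⁻¹ = 1 / (N * Y ^ (3 / 2 : ℝ)) := by
  have h1 : Y ^ (3 / 2 : ℝ) = Y * √Y := by
    rw [Real.sqrt_eq_rpow]
    nth_rewrite 2 [← Real.rpow_one Y]
    rw [← Real.rpow_add hY]
    norm_num
  have hs : 0 < √N := Real.sqrt_pos.2 hN
  have hs' : 0 < √Y := Real.sqrt_pos.2 hY
  rw [h1, Real.sqrt_mul hN.le]
  field_simp

/-- **the bound on the annuli, one `N₀` for all `T` and all pairs** -/
theorem bdA_strong (X : Ext) {κ : Fin 3 → Fin 3 → ℝ} {Θ : Gauge} (h : Asy κ Θ) :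
    ∃ N₀ : ℝ, 1 ≤ N₀ ∧ ∀ (i : Fin 3) (T : MT), SymT T → H573.WtT 8 T →
      (T.compContinuousLinearMap fun _ => H95.sH ⟨2 * i, by omega⟩) = T → ∃ C : ℝ, 0 ≤ C ∧
      ∀ R m (far : R.Cm → Bool) (N Y : ℝ), N₀ ≤ N → 1 ≤ Y → ∀ α : Fin 3 → ℝ,
        (∀ k, -7 ≤ α k ∧ α k ≤ 1) → ∀ x ∈ H573.domF R m far (H573.yA i N Y) α,
          |H573.OmR R m X Θ T (H573.Sx R far) (H573.mk R m (H573.yA i N Y) α x)
            (H573.fr30 R m ((W R m).eul (H573.mk R m (H573.yA i N Y) α x) i)
              ((W R m).vec (.al i)))| ≤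
            C / (N * Y ^ (3 / 2 : ℝ)) * ∏ f : (W R m).Fr, max (Real.exp (-x.1.1 f))
              (1 / H573.yA i N Y ((W R m).nk f.1)) := by
  obtain ⟨A, K, δ, N₀, D⟩ := exists_dat X h
  refine ⟨N₀, by linarith [D.hN], fun i T hs hT hfix => ⟨|H422.KK 16 i T A (3 * K)|,
    abs_nonneg _, ?_⟩⟩
  intro R m far N Y hN hY α hα x hx
  have hN100 : 100 ≤ N := D.hN.trans hN
  have hN0 : 0 < N := by linarith
  have hY0 : 0 < Y := by linarith
  have hNY : N ≤ N * Y := le_mul_of_one_le_right hN0.le hY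
  have hge : ∀ k, N ≤ H573.yA i N Y k := fun k => by
    unfold H573.yA; split_ifs
    · exact hNY
    · exact le_rfl
  have hfix' : ∀ z : Fin 14 → H4, T (fun j => sH (H422.ix i) (z j)) = T z := by
    intro z
    have e := congrArg (fun U : MT => U z) hfix
    rw [ix_eq] at e
    exact e
  have hKK : 0 ≤ |H422.KK 16 i T A (3 * K)| := abs_nonneg _
  rcases H182.adm_or_zero X Θ T hx (fun k => by have := hge k; linarith)
    (N₀ := N₀) (fun k => hN.trans (hge k)) hα with hp | h0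
  · have hl : Len i N (N * Y) (H573.mk R m (H573.yA i N Y) α x) :=
      ⟨by linarith, hNY, by change H573.yA i N Y i = N * Y; simp [H573.yA],
        fun k hk => by change H573.yA i N Y k = N; simp [H573.yA, hk]⟩
    have hfr : Frm (H573.mk R m (H573.yA i N Y) α x) (fd30 R m (.eul i) (.al i))
        (H573.fr30 R m ((W R m).eul (H573.mk R m (H573.yA i N Y) α x) i)
          ((W R m).vec (.al i))) := frm30 _ (.eul i) (.al i)
    have h1 := D.ann (T := T) hs i (kill_of_wt hT) hfix' (H182.farOk_Sx R far) hp hl hfr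
    rw [prod_fd30 (H573.mk R m (H573.yA i N Y) α x) (cA i N (N * Y) _) (fun f => cA_mul i f)
      (fun _ => rfl) (fun _ => rfl)] at h1
    refine h1.trans (le_of_eq ?_)
    have e : cA i N (N * Y) (H573.mk R m (H573.yA i N Y) α x) (.eul i) *
        cA i N (N * Y) (H573.mk R m (H573.yA i N Y) α x) (.al i) = 1 / (N * Y ^ (3 / 2 : ℝ)) := by
      simp only [cA, if_true]
      exact ann_factor hN0 hY0
    rw [e]
    calc |H422.KK 16 i T A (3 * K)| * ((∏ f, qf (H573.mk R m (H573.yA i N Y) α x) f) *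
          (1 / (N * Y ^ (3 / 2 : ℝ))))
        = |H422.KK 16 i T A (3 * K)| / (N * Y ^ (3 / 2 : ℝ)) *
          ∏ f, qf (H573.mk R m (H573.yA i N Y) α x) f := by ring
      _ = _ := rfl
  · rw [h0]
    have e : (0 : Alt (16 + 14) (Co R m))
        (H573.fr30 R m ((W R m).eul (H573.mk R m (H573.yA i N Y) α x) i)
          ((W R m).vec (.al i))) = 0 := rfl
    rw [e, abs_zero]
    exact mul_nonneg (by positivity) (Finset.prod_nonneg fun f _ =>
      (Real.exp_pos _).le.trans (le_max_left _ _))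

/-- **(S4b)** -/
theorem bdA (X : Ext) {κ : Fin 3 → Fin 3 → ℝ} {Θ : Gauge} (h : Asy κ Θ) : H573.BdA X Θ := by
  obtain ⟨N₀, h1, h2⟩ := bdA_strong X h
  intro i T hs hT hfix
  obtain ⟨C, _, hC⟩ := h2 i T hs hT hfix
  exact ⟨C, N₀, h1, hC⟩

end Vale.Agent.P273.H975
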