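import Vale.Agent.P273.H422.SclH
import Vale.Agent.P273.H562.AsyDefs
import Vale.Agent.P273.H975.FLim

/-!
# P273, LIM-BD: the legs of the gauge in the scaled frames

`Fd` = directions (coordinate directions and Euler vectors), `cT`, `cA` = their costs for tori and
annuli.  `tor_*`, `ann_*`: the bounds of the legs for the four kinds of classes.
-/

set_option linter.unusedSectionVars false
set_option linter.unusedSimpArgs false

noncomputable section

namespace Vale.Agent.P273.H975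

open H95 H732 H973 H562 Filter Set
open scoped Topology ContDiff

section Dirs

variable (R : H95.Region) (m : ∀ k, Fin (R.n k + 1))

/-- directions -/
inductive Fd (R : H95.Region) (m : ∀ k, Fin (R.n k + 1)) : Type
  | u (f : (W R m).Fr)
  | ph (f : (W R m).Fr)
  | re (c : R.Cm)
  | im (c : R.Cm)
  | al (k : Fin 3)
  | eul (k : Fin 3)

variable {R m}

/-- the vector of a direction -/
def Fd.v (p : Co R m) : Fd R m → Co R m
  | .u f => (W R m).vec (.u f)
  | .ph f => (W R m).vec (.ph f)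
  | .re c => (W R m).vec (.re c)
  | .im c => (W R m).vec (.im c)
  | .al k => (W R m).vec (.al k)
  | .eul k => (W R m).eul p k

/-- the potentials in the log chart -/
def thp (Θ : Gauge) (S : L → Bool) (p : Co R m) (i : Fin 14) : Co R m →L[ℝ] H4 :=
  (Θ.th i S (posE R m p) (shE R m S p)).comp (fderiv ℝ (posE R m) p)

theorem thp_apply (Θ : Gauge) (S : L → Bool) (p : Co R m) (i : Fin 14) (v : Co R m)
    (a : Fin 4) : thp Θ S p i v a = leg R m Θ S (mrk i) (col4 a) p v := rfl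

/-- `max (e^{-u}) (1/y)` -/
def qf (p : Co R m) (f : (W R m).Fr) : ℝ :=
  max (Real.exp (-p.1 f)) (1 / p.2.2.1 ((W R m).nk f.1))

/-- costs, all necks of length `N` -/
def cT (N : ℝ) (p : Co R m) : Fd R m → ℝ
  | .u f => √(qf p f)
  | .ph f => √(qf p f)
  | .re _ => 1
  | .im _ => 1
  | .al _ => (√N)⁻¹
  | .eul _ => (√N)⁻¹

/-- costs, the neck `i` of length `y`, the others of length `N` -/
def cA (i : Fin 3) (N y : ℝ) (p : Co R m) : Fd R m → ℝ
  | .u f => √(qf p f)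
  | .ph f => √(qf p f)
  | .re _ => 1
  | .im _ => 1
  | .al k => if k = i then (√y)⁻¹ else (√N)⁻¹
  | .eul k => if k = i then √N / y else (√N)⁻¹

theorem qf_pos {p : Co R m} (hy : ∀ k, 1 ≤ p.2.2.1 k) (f : (W R m).Fr) : 0 < qf p f :=
  (Real.exp_pos _).trans_le (le_max_left _ _)

theorem cT_nonneg {N : ℝ} (p : Co R m) (d : Fd R m) : 0 ≤ cT N p d := by
  cases d <;> simp [cT, Real.sqrt_nonneg]

theorem cA_nonneg (i : Fin 3) {N y : ℝ} (hy : 0 ≤ y) (p : Co R m) (d : Fd R m) :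
    0 ≤ cA i N y p d := by
  cases d with
  | u f => exact Real.sqrt_nonneg _
  | ph f => exact Real.sqrt_nonneg _
  | re c => exact zero_le_one
  | im c => exact zero_le_one
  | al k => simp only [cA]; split_ifs <;> positivity
  | eul k => simp only [cA]; split_ifs <;> positivity

theorem qf_le_one {p : Co R m} (hp : (W R m).Inr p) (hy : ∀ k, 1 ≤ p.2.2.1 k)
    (f : (W R m).Fr) : qf p f ≤ 1 := by
  refine max_le (by simpa using hp.1 f) ?_
  rw [div_le_one (zero_lt_one.trans_le (hy _))]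
  exact hy _

end Dirs

/-! ### the numbers -/

/-- the numbers of a class with norm at most one -/
theorem abs_xe_le {ξ : Fin 6 → ℝ} (hξ : ‖ξ‖ ≤ 1) (k : Fin 3) : |xe ξ k| ≤ 1 := by
  have h : ∀ i, |ξ i| ≤ 1 := fun i => (norm_le_pi_norm ξ i).trans hξ
  fin_cases k
  · exact h 1
  · exact h 3
  · exact h 5

theorem ww_nonneg (ξ : Fin 6 → ℝ) {y : Fin 3 → ℝ} (hy : ∀ k, 0 < y k) : 0 ≤ ww ξ y :=
  Finset.sum_nonneg fun k _ => div_nonneg (abs_nonneg _) (hy k).le

theorem ww_le_three {ξ : Fin 6 → ℝ} (hξ : ‖ξ‖ ≤ 1) {y : Fin 3 → ℝ} {N : ℝ} (hN : 0 < N)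
    (hy : ∀ k, N ≤ y k) : ww ξ y ≤ 3 / N := by
  have h : ∀ k ∈ (Finset.univ : Finset (Fin 3)), |xe ξ k| / y k ≤ 1 / N := fun k _ =>
    div_le_div₀ zero_le_one (abs_xe_le hξ k) hN (hy k)
  calc ww ξ y ≤ ∑ _k : Fin 3, 1 / N := Finset.sum_le_sum h
    _ = 3 / N := by simp; ring

theorem ww_le_single {ξ : Fin 6 → ℝ} (hξ : ‖ξ‖ ≤ 1) {y : Fin 3 → ℝ} {i : Fin 3}
    (hy : 0 < y i) (h0 : ∀ l, l ≠ i → xe ξ l = 0) : ww ξ y ≤ 1 / y i := by
  unfold ww
  rw [Finset.sum_eq_single i (fun l _ hl => by simp [h0 l hl])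
    (fun h => absurd (Finset.mem_univ _) h)]
  exact div_le_div_of_nonneg_right (abs_xe_le hξ i) hy.le

theorem ww_le_two {ξ : Fin 6 → ℝ} (hξ : ‖ξ‖ ≤ 1) {y : Fin 3 → ℝ} {N : ℝ} (hN : 0 < N)
    {i : Fin 3} (hi : xe ξ i = 0) (hy : ∀ k, k ≠ i → N ≤ y k) : ww ξ y ≤ 3 / N := by
  have h : ∀ k ∈ (Finset.univ : Finset (Fin 3)), |xe ξ k| / y k ≤ 1 / N := by
    intro k _
    by_cases hk : k = i
    · rw [hk, hi]; simp [hN.le]
    · exact div_le_div₀ zero_le_one (abs_xe_le hξ k) hN (hy k hk)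
  calc ww ξ y ≤ ∑ _k : Fin 3, 1 / N := Finset.sum_le_sum h
    _ = 3 / N := by simp; ring

theorem mn_le (y : Fin 3 → ℝ) (k : Fin 3) : mn y ≤ y k := by
  unfold mn
  fin_cases k
  · exact min_le_left _ _
  · exact (min_le_right _ _).trans (min_le_left _ _)
  · exact (min_le_right _ _).trans (min_le_right _ _)

theorem mn_nonneg {y : Fin 3 → ℝ} (hy : ∀ k, 0 < y k) : 0 ≤ mn y :=
  le_min (hy 0).le (le_min (hy 1).le (hy 2).le)

/-! ### one constant for all the bounds -/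

/-- the bounds of `Asy` with common constants -/
structure LB (Θ : Gauge) (K N₀ : ℝ) : Prop where
  b1 : ∀ R m S, FarOk R S → ∀ p, Adm R m S N₀ p → ∀ j ξ, IsCl ξ →
    ∀ d : (W R m).Dir R.Cm, (∀ k, d ≠ .y k) → |leg R m Θ S j ξ p ((W R m).vec d)| ≤ K * ‖ξ‖
  b2 : ∀ R m S, FarOk R S → ∀ p, Adm R m S N₀ p → ∀ j ξ, IsCl ξ →
    ∀ f : (W R m).Fr, ∀ d : (W R m).Dir R.Cm, (d = .u f ∨ d = .ph f) →
      |leg R m Θ S j ξ p ((W R m).vec d)| ≤ K * (|bt ξ ((W R m).nk f.1)| +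
        ‖ξ‖ * (1 / p.2.2.1 ((W R m).nk f.1) + Real.exp (-p.1 f)))
  b4 : ∀ R m S, FarOk R S → ∀ p, Adm R m S N₀ p → ∀ j ξ, IsCl ξ →
    ∀ k, |leg R m Θ S j ξ p ((W R m).vec (.al k))| ≤ K * (|bt ξ k| + ‖ξ‖ / p.2.2.1 k)
  b5 : ∀ R m S, FarOk R S → ∀ p, Adm R m S N₀ p → ∀ j ξ, IsCl ξ →
    ∀ k, |leg R m Θ S j ξ p ((W R m).eul p k)| ≤ K * (‖ξ‖ / p.2.2.1 k)
  b6 : ∀ R m S, FarOk R S → ∀ p, Adm R m S N₀ p → ∀ j ξ, IsCl ξ →
    (∀ k, bt ξ k = 0) →
    (∀ d : (W R m).Dir R.Cm, (∀ k, d ≠ .y k) →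
      |leg R m Θ S j ξ p ((W R m).vec d)| ≤ K * ww ξ p.2.2.1) ∧
    ∀ k, |leg R m Θ S j ξ p ((W R m).eul p k)| ≤
      K * (ww ξ p.2.2.1 * (mn p.2.2.1 / p.2.2.1 k))

theorem Adm.mono {R : H95.Region} {m : ∀ k, Fin (R.n k + 1)} {S : L → Bool} {N N' : ℝ}
    (h : N ≤ N') {p : Co R m} (hp : Adm R m S N' p) : Adm R m S N p :=
  ⟨hp.1, fun k => h.trans (hp.2.1 k), hp.2.2⟩

theorem exists_LB {κ : Fin 3 → Fin 3 → ℝ} {Θ : Gauge} (h : Asy κ Θ) :
    ∃ K N₀ : ℝ, 1 ≤ K ∧ 1 ≤ N₀ ∧ LB Θ K N₀ := by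
  obtain ⟨K1, N1, h1, b1⟩ := h.b1
  obtain ⟨K2, N2, h2, b2⟩ := h.b2
  obtain ⟨K4, N4, h4, b4⟩ := h.b4
  obtain ⟨K5, N5, h5, b5⟩ := h.b5
  obtain ⟨K6, N6, h6, b6⟩ := h.b6
  set K := |K1| + |K2| + |K4| + |K5| + |K6| + 1 with hK
  set N₀ := N1 + N2 + N4 + N5 + N6 with hN
  have a1 := abs_nonneg K1
  have a2 := abs_nonneg K2
  have a4 := abs_nonneg K4
  have a5 := abs_nonneg K5
  have a6 := abs_nonneg K6
  have l1 : K1 ≤ K := by have := le_abs_self K1; linarith
  have l2 : K2 ≤ K := by have := le_abs_self K2; linarith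
  have l4 : K4 ≤ K := by have := le_abs_self K4; linarith
  have l5 : K5 ≤ K := by have := le_abs_self K5; linarith
  have l6 : K6 ≤ K := by have := le_abs_self K6; linarith
  refine ⟨K, N₀, by linarith, by linarith, ?_, ?_, ?_, ?_, ?_⟩
  · intro R m S hS p hp j ξ hξ d hd
    exact (b1 R m S hS p (Adm.mono (by linarith) hp) j ξ hξ d hd).trans
      (mul_le_mul_of_nonneg_right l1 (norm_nonneg _))
  · intro R m S hS p hp j ξ hξ f d hd
    have hy : 0 < p.2.2.1 ((W R m).nk f.1) := by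
      have := hp.2.1 ((W R m).nk f.1); linarith
    exact (b2 R m S hS p (Adm.mono (by linarith) hp) j ξ hξ f d hd).trans
      (mul_le_mul_of_nonneg_right l2 (by positivity))
  · intro R m S hS p hp j ξ hξ k
    have hy : 0 < p.2.2.1 k := by have := hp.2.1 k; linarith
    exact (b4 R m S hS p (Adm.mono (by linarith) hp) j ξ hξ k).trans
      (mul_le_mul_of_nonneg_right l4 (by positivity))
  · intro R m S hS p hp j ξ hξ k
    have hy : 0 < p.2.2.1 k := by have := hp.2.1 k; linarith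
    exact (b5 R m S hS p (Adm.mono (by linarith) hp) j ξ hξ k).trans
      (mul_le_mul_of_nonneg_right l5 (by positivity))
  · intro R m S hS p hp j ξ hξ h0
    have hy : ∀ k, 0 < p.2.2.1 k := fun k => by have := hp.2.1 k; linarith
    obtain ⟨c1, c2⟩ := b6 R m S hS p (Adm.mono (by linarith) hp) j ξ hξ h0
    refine ⟨fun d hd => (c1 d hd).trans (mul_le_mul_of_nonneg_right l6 (ww_nonneg ξ hy)),
      fun k => (c2 k).trans (mul_le_mul_of_nonneg_right l6 ?_)⟩
    exact mul_nonneg (ww_nonneg ξ hy) (div_nonneg (mn_nonneg hy) (hy k).le)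

/-! ### the legs -/

section Legs

variable {Θ : Gauge} {K N₀ : ℝ} {R : H95.Region} {m : ∀ k, Fin (R.n k + 1)} {S : L → Bool}
  {p : Co R m} {ξ : Fin 6 → ℝ} {j : L}

theorem inv_sqrt_le_sqrt_qf {N : ℝ} (hN : 0 < N) (f : (W R m).Fr)
    (hy0 : 0 < p.2.2.1 ((W R m).nk f.1)) (hy : p.2.2.1 ((W R m).nk f.1) ≤ N) :
    (√N)⁻¹ ≤ √(qf p f) := by
  rw [← Real.sqrt_inv]
  refine Real.sqrt_le_sqrt (le_trans ?_ (le_max_right _ _))
  rw [inv_eq_one_div]
  exact one_div_le_one_div_of_le hy0 hy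

/-- every class on a coordinate direction -/
theorem leg_le (h : LB Θ K N₀) (hS : FarOk R S) (hp : Adm R m S N₀ p) (hξ : IsCl ξ)
    (hn : ‖ξ‖ ≤ 1) (hK : 1 ≤ K) (d : (W R m).Dir R.Cm) (hd : ∀ k, d ≠ .y k) :
    |leg R m Θ S j ξ p ((W R m).vec d)| ≤ K :=
  (h.b1 R m S hS p hp j ξ hξ d hd).trans
    (mul_le_of_le_one_right (by linarith) hn)

/-- every class, torus -/
theorem tor_b (h : LB Θ K N₀) (hS : FarOk R S) (hp : Adm R m S N₀ p) (hξ : IsCl ξ)
    (hn : ‖ξ‖ ≤ 1) (hK : 1 ≤ K) {N : ℝ} (hN : 1 ≤ N) (hy : ∀ k, p.2.2.1 k = N) (d : Fd R m) :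
    |leg R m Θ S j ξ p (d.v p)| ≤ K * √N * cT N p d := by
  have hs : 1 ≤ √N := by rw [Real.one_le_sqrt]; exact hN
  have hs0 : 0 < √N := by linarith
  have e1 : √N * (√N)⁻¹ = 1 := mul_inv_cancel₀ hs0.ne'
  have hq : ∀ f, 1 ≤ √N * √(qf p f) := fun f => by
    have := inv_sqrt_le_sqrt_qf (p := p) (by linarith : 0 < N) f (by rw [hy]; linarith)
      (by rw [hy])
    calc 1 = √N * (√N)⁻¹ := e1.symm
      _ ≤ _ := mul_le_mul_of_nonneg_left this hs0.le
  have hK0 : 0 ≤ K := by linarith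
  cases d with
  | u f =>
    refine (leg_le h hS hp hξ hn hK (.u f) (by simp)).trans ?_
    simp only [cT]; rw [mul_assoc]
    exact le_mul_of_one_le_right hK0 (hq f)
  | ph f =>
    refine (leg_le h hS hp hξ hn hK (.ph f) (by simp)).trans ?_
    simp only [cT]; rw [mul_assoc]
    exact le_mul_of_one_le_right hK0 (hq f)
  | re c =>
    refine (leg_le h hS hp hξ hn hK (.re c) (by simp)).trans ?_
    simp only [cT, mul_one]
    exact le_mul_of_one_le_right hK0 hs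
  | im c =>
    refine (leg_le h hS hp hξ hn hK (.im c) (by simp)).trans ?_
    simp only [cT, mul_one]
    exact le_mul_of_one_le_right hK0 hs
  | al k =>
    refine (leg_le h hS hp hξ hn hK (.al k) (by simp)).trans ?_
    simp only [cT]; rw [mul_assoc, e1, mul_one]
  | eul k =>
    refine (h.b5 R m S hS p hp j ξ hξ k).trans ?_
    simp only [cT]; rw [mul_assoc, e1, hy]
    refine mul_le_mul_of_nonneg_left ?_ hK0
    rw [div_le_one (by linarith)]
    linarith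

/-- classes constant on the pairs, torus -/
theorem tor_a (h : LB Θ K N₀) (hS : FarOk R S) (hp : Adm R m S N₀ p) (hξ : IsCl ξ)
    (hn : ‖ξ‖ ≤ 1) (hb : ∀ k, bt ξ k = 0) (hK : 1 ≤ K) {N : ℝ} (hN : 1 ≤ N)
    (hy : ∀ k, p.2.2.1 k = N) (d : Fd R m) :
    |leg R m Θ S j ξ p (d.v p)| ≤ (3 * K) * (√N)⁻¹ * cT N p d := by
  have hs : 1 ≤ √N := by rw [Real.one_le_sqrt]; exact hN
  have hs0 : 0 < √N := by linarith
  have hN0 : 0 < N := by linarith
  have hK0 : 0 ≤ K := by linarith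
  have hi0 : 0 ≤ (√N)⁻¹ := by positivity
  have hi1 : (√N)⁻¹ ≤ 1 := inv_le_one_of_one_le₀ hs
  have e2 : (√N)⁻¹ * (√N)⁻¹ = 1 / N := by
    rw [← mul_inv, Real.mul_self_sqrt hN0.le, one_div]
  have hw : ww ξ p.2.2.1 ≤ 3 / N := ww_le_three hn hN0 fun k => (hy k).ge
  have hw0 : 0 ≤ ww ξ p.2.2.1 := ww_nonneg ξ fun k => by rw [hy]; exact hN0
  obtain ⟨h1, h2⟩ := h.b6 R m S hS p hp j ξ hξ hb
  have key : ∀ c : ℝ, (√N)⁻¹ ≤ c → K * ww ξ p.2.2.1 ≤ (3 * K) * (√N)⁻¹ * c := by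
    intro c hc
    calc K * ww ξ p.2.2.1 ≤ K * (3 / N) := mul_le_mul_of_nonneg_left hw hK0
      _ = (3 * K) * ((√N)⁻¹ * (√N)⁻¹) := by rw [e2]; ring
      _ ≤ (3 * K) * ((√N)⁻¹ * c) :=
        mul_le_mul_of_nonneg_left (mul_le_mul_of_nonneg_left hc hi0) (by positivity)
      _ = _ := by ring
  have hq : ∀ f, (√N)⁻¹ ≤ √(qf p f) := fun f =>
    inv_sqrt_le_sqrt_qf (p := p) hN0 f (by rw [hy]; exact hN0) (by rw [hy])
  cases d with
  | u f => exact (h1 (.u f) (by simp)).trans (key _ (hq f))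
  | ph f => exact (h1 (.ph f) (by simp)).trans (key _ (hq f))
  | re c => exact (h1 (.re c) (by simp)).trans (key _ hi1)
  | im c => exact (h1 (.im c) (by simp)).trans (key _ hi1)
  | al k => exact (h1 (.al k) (by simp)).trans (key _ le_rfl)
  | eul k =>
    refine (h2 k).trans (le_trans ?_ (key _ le_rfl))
    refine mul_le_mul_of_nonneg_left (mul_le_of_le_one_right hw0 ?_) hK0
    rw [div_le_one (by rw [hy]; exact hN0)]
    exact mn_le _ k

/-! annuli: `y` = length of the neck `i`, `N` = length of the others -/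

variable {i : Fin 3} {N y : ℝ}

/-- hypotheses on the lengths -/
structure Len (i : Fin 3) (N y : ℝ) (p : Co R m) : Prop where
  one_le : 1 ≤ N
  le : N ≤ y
  hi : p.2.2.1 i = y
  ho : ∀ k, k ≠ i → p.2.2.1 k = N

theorem Len.ge (hl : Len i N y p) (k : Fin 3) : N ≤ p.2.2.1 k := by
  by_cases hk : k = i
  · rw [hk, hl.hi]; exact hl.le
  · rw [hl.ho k hk]

theorem Len.le_y (hl : Len i N y p) (k : Fin 3) : p.2.2.1 k ≤ y := by
  by_cases hk : k = i
  · rw [hk, hl.hi]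
  · rw [hl.ho k hk]; exact hl.le

theorem Len.pos (hl : Len i N y p) (k : Fin 3) : 0 < p.2.2.1 k :=
  (zero_lt_one.trans_le hl.one_le).trans_le (hl.ge k)

theorem Len.mn_le_N (hl : Len i N y p) : mn p.2.2.1 ≤ N := by
  obtain ⟨k, hk⟩ : ∃ k : Fin 3, k ≠ i := by
    by_cases h0 : (0 : Fin 3) = i
    · exact ⟨1, by rw [← h0]; decide⟩
    · exact ⟨0, h0⟩
  exact (mn_le _ k).trans (hl.ho k hk).le

/-- any class -/
theorem ann_b1 (h : LB Θ K N₀) (hS : FarOk R S) (hp : Adm R m S N₀ p) (hξ : IsCl ξ)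
    (hn : ‖ξ‖ ≤ 1) (hK : 1 ≤ K) (hl : Len i N y p) (d : Fd R m) :
    |leg R m Θ S j ξ p (d.v p)| ≤ K * √y * cA i N y p d := by
  have hN0 : 0 < N := zero_lt_one.trans_le hl.one_le
  have hy0 : 0 < y := hN0.trans_le hl.le
  have ht : 1 ≤ √N := by rw [Real.one_le_sqrt]; exact hl.one_le
  have hr : √N ≤ √y := Real.sqrt_le_sqrt hl.le
  have hr1 : 1 ≤ √y := ht.trans hr
  have ht0 : 0 < √N := by linarith
  have hr0 : 0 < √y := by linarith
  have hK0 : 0 ≤ K := by linarith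
  have e1 : √y * (√y)⁻¹ = 1 := mul_inv_cancel₀ hr0.ne'
  have hq : ∀ f, 1 ≤ √y * √(qf p f) := fun f => by
    have := inv_sqrt_le_sqrt_qf (p := p) hy0 f (hl.pos _) (hl.le_y _)
    calc 1 = √y * (√y)⁻¹ := e1.symm
      _ ≤ _ := mul_le_mul_of_nonneg_left this hr0.le
  have e3 : 1 ≤ √y * (√N)⁻¹ := by
    rw [← div_eq_mul_inv, le_div_iff₀ ht0, one_mul]; exact hr
  cases d with
  | u f =>
    refine (leg_le h hS hp hξ hn hK (.u f) (by simp)).trans ?_
    simp only [cA]; rw [mul_assoc]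
    exact le_mul_of_one_le_right hK0 (hq f)
  | ph f =>
    refine (leg_le h hS hp hξ hn hK (.ph f) (by simp)).trans ?_
    simp only [cA]; rw [mul_assoc]
    exact le_mul_of_one_le_right hK0 (hq f)
  | re c =>
    refine (leg_le h hS hp hξ hn hK (.re c) (by simp)).trans ?_
    simp only [cA, mul_one]
    exact le_mul_of_one_le_right hK0 hr1
  | im c =>
    refine (leg_le h hS hp hξ hn hK (.im c) (by simp)).trans ?_
    simp only [cA, mul_one]
    exact le_mul_of_one_le_right hK0 hr1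
  | al k =>
    refine (leg_le h hS hp hξ hn hK (.al k) (by simp)).trans ?_
    simp only [cA]; rw [mul_assoc]
    refine le_mul_of_one_le_right hK0 ?_
    split_ifs
    · exact e1.ge
    · exact e3
  | eul k =>
    refine (h.b5 R m S hS p hp j ξ hξ k).trans ?_
    simp only [cA]; rw [mul_assoc]
    refine mul_le_mul_of_nonneg_left ?_ hK0
    split_ifs with hk
    · rw [hk, hl.hi, mul_div_assoc']
      refine div_le_div_of_nonneg_right ?_ hy0.le
      nlinarith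
    · refine le_trans ?_ e3
      rw [div_le_one (hl.pos k)]
      have := hl.ge k
      have := hl.one_le
      linarith

/-- classes constant on the pairs and zero off the pair `i` -/
theorem ann_a1 (h : LB Θ K N₀) (hS : FarOk R S) (hp : Adm R m S N₀ p) (hξ : IsCl ξ)
    (hn : ‖ξ‖ ≤ 1) (hb : ∀ k, bt ξ k = 0) (h0 : ∀ l, l ≠ i → xe ξ l = 0) (hK : 1 ≤ K)
    (hl : Len i N y p) (d : Fd R m) :
    |leg R m Θ S j ξ p (d.v p)| ≤ K * (√y)⁻¹ * cA i N y p d := by
  have hN0 : 0 < N := zero_lt_one.trans_le hl.one_le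
  have hy0 : 0 < y := hN0.trans_le hl.le
  have ht : 1 ≤ √N := by rw [Real.one_le_sqrt]; exact hl.one_le
  have hr : √N ≤ √y := Real.sqrt_le_sqrt hl.le
  have hr1 : 1 ≤ √y := ht.trans hr
  have ht0 : 0 < √N := by linarith
  have hr0 : 0 < √y := by linarith
  have hK0 : 0 ≤ K := by linarith
  have hi0 : 0 ≤ (√y)⁻¹ := by positivity
  have hi1 : (√y)⁻¹ ≤ 1 := inv_le_one_of_one_le₀ hr1
  have hi2 : (√y)⁻¹ ≤ (√N)⁻¹ := inv_anti₀ ht0 hr
  have e2 : (√y)⁻¹ * (√y)⁻¹ = 1 / y := by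
    rw [← mul_inv, Real.mul_self_sqrt hy0.le, one_div]
  have hw : ww ξ p.2.2.1 ≤ 1 / y := by
    have := ww_le_single hn (hl.pos i) h0
    rwa [hl.hi] at this
  have hw0 : 0 ≤ ww ξ p.2.2.1 := ww_nonneg ξ hl.pos
  obtain ⟨h1, h2⟩ := h.b6 R m S hS p hp j ξ hξ hb
  have key : ∀ c : ℝ, (√y)⁻¹ ≤ c → K * ww ξ p.2.2.1 ≤ K * (√y)⁻¹ * c := by
    intro c hc
    calc K * ww ξ p.2.2.1 ≤ K * (1 / y) := mul_le_mul_of_nonneg_left hw hK0
      _ = K * ((√y)⁻¹ * (√y)⁻¹) := by rw [e2]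
      _ ≤ K * ((√y)⁻¹ * c) :=
        mul_le_mul_of_nonneg_left (mul_le_mul_of_nonneg_left hc hi0) hK0
      _ = _ := by ring
  have hq : ∀ f, (√y)⁻¹ ≤ √(qf p f) := fun f =>
    inv_sqrt_le_sqrt_qf (p := p) hy0 f (hl.pos _) (hl.le_y _)
  cases d with
  | u f => exact (h1 (.u f) (by simp)).trans (key _ (hq f))
  | ph f => exact (h1 (.ph f) (by simp)).trans (key _ (hq f))
  | re c => exact (h1 (.re c) (by simp)).trans (key _ hi1)
  | im c => exact (h1 (.im c) (by simp)).trans (key _ hi1)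
  | al k =>
    refine (h1 (.al k) (by simp)).trans ?_
    simp only [cA]
    split_ifs
    · exact key _ le_rfl
    · exact key _ hi2
  | eul k =>
    refine (h2 k).trans ?_
    simp only [cA]
    split_ifs with hk
    · rw [hk, hl.hi]
      have h3 : mn p.2.2.1 / y ≤ N / y := div_le_div_of_nonneg_right hl.mn_le_N hy0.le
      have h4 : 0 ≤ mn p.2.2.1 / y := div_nonneg (mn_nonneg hl.pos) hy0.le
      calc K * (ww ξ p.2.2.1 * (mn p.2.2.1 / y)) ≤ K * ((1 / y) * (N / y)) :=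
            mul_le_mul_of_nonneg_left (mul_le_mul hw h3 h4 (by positivity)) hK0
        _ = K * ((√y)⁻¹ * (√y)⁻¹ * (√N * √N / y)) := by
            rw [e2, Real.mul_self_sqrt hN0.le]
        _ ≤ K * ((√y)⁻¹ * (√y)⁻¹ * (√N * √y / y)) := by
            refine mul_le_mul_of_nonneg_left (mul_le_mul_of_nonneg_left ?_ (by positivity)) hK0
            exact div_le_div_of_nonneg_right (mul_le_mul_of_nonneg_left hr ht0.le) hy0.le
        _ = K * (√y)⁻¹ * (√N / y) := by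
            field_simp
    · refine le_trans ?_ (key _ hi2)
      refine mul_le_mul_of_nonneg_left (mul_le_of_le_one_right hw0 ?_) hK0
      rw [div_le_one (hl.pos k)]
      exact mn_le _ k

/-- classes constant on the pair `i` -/
theorem ann_b2 (h : LB Θ K N₀) (hS : FarOk R S) (hp : Adm R m S N₀ p) (hξ : IsCl ξ)
    (hn : ‖ξ‖ ≤ 1) (hb : bt ξ i = 0) (hK : 1 ≤ K) (hl : Len i N y p) (d : Fd R m) :
    |leg R m Θ S j ξ p (d.v p)| ≤ (2 * K) * √N * cA i N y p d := by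
  have hN0 : 0 < N := zero_lt_one.trans_le hl.one_le
  have hy0 : 0 < y := hN0.trans_le hl.le
  have ht : 1 ≤ √N := by rw [Real.one_le_sqrt]; exact hl.one_le
  have hr : √N ≤ √y := Real.sqrt_le_sqrt hl.le
  have hr1 : 1 ≤ √y := ht.trans hr
  have ht0 : 0 < √N := by linarith
  have hr0 : 0 < √y := by linarith
  have hK0 : 0 ≤ K := by linarith
  have hy1 : ∀ k, 1 ≤ p.2.2.1 k := fun k => hl.one_le.trans (hl.ge k)
  have e1 : √N * (√N)⁻¹ = 1 := mul_inv_cancel₀ ht0.ne'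
  have ey : (√y)⁻¹ = √y / y := by
    rw [eq_div_iff hy0.ne']
    calc (√y)⁻¹ * y = (√y)⁻¹ * (√y * √y) := by rw [Real.mul_self_sqrt hy0.le]
      _ = √y := by field_simp
  have gap : ∀ (f : (W R m).Fr) (d : (W R m).Dir R.Cm), (d = .u f ∨ d = .ph f) →
      |leg R m Θ S j ξ p ((W R m).vec d)| ≤ (2 * K) * √N * √(qf p f) := by
    intro f d hd
    have hq1 := qf_le_one hp.1 hy1 f
    have hq0 := qf_pos hy1 f
    by_cases hk : (W R m).nk f.1 = i
    · refine (h.b2 R m S hS p hp j ξ hξ f d hd).trans ?_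
      rw [hk, hb, abs_zero, zero_add]
      have h3 : 1 / p.2.2.1 i ≤ qf p f := by
        have := le_max_right (Real.exp (-p.1 f)) (1 / p.2.2.1 ((W R m).nk f.1))
        rw [hk] at this
        rw [qf, hk]; exact this
      have h4 : Real.exp (-p.1 f) ≤ qf p f := le_max_left _ _
      have h5 : qf p f ≤ √(qf p f) := by
        have h6 := Real.mul_self_sqrt hq0.le
        have h7 : √(qf p f) ≤ 1 := Real.sqrt_le_one.2 hq1
        calc qf p f = √(qf p f) * √(qf p f) := h6.symm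
          _ ≤ √(qf p f) * 1 := mul_le_mul_of_nonneg_left h7 (Real.sqrt_nonneg _)
          _ = _ := mul_one _
      have h8 : 0 ≤ 1 / p.2.2.1 i + Real.exp (-p.1 f) := by
        have := hl.pos i; positivity
      calc K * (‖ξ‖ * (1 / p.2.2.1 i + Real.exp (-p.1 f)))
          ≤ K * (1 * (1 / p.2.2.1 i + Real.exp (-p.1 f))) :=
            mul_le_mul_of_nonneg_left (mul_le_mul_of_nonneg_right hn h8) hK0
        _ ≤ K * (2 * √(qf p f)) := mul_le_mul_of_nonneg_left (by linarith) hK0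
        _ = (2 * K) * 1 * √(qf p f) := by ring
        _ ≤ (2 * K) * √N * √(qf p f) :=
            mul_le_mul_of_nonneg_right (mul_le_mul_of_nonneg_left ht (by positivity))
              (Real.sqrt_nonneg _)
    · have hdy : ∀ k, d ≠ .y k := by rcases hd with rfl | rfl <;> simp
      refine (leg_le h hS hp hξ hn hK d hdy).trans ?_
      have h3 := inv_sqrt_le_sqrt_qf (p := p) hN0 f (hl.pos _) (hl.ho _ hk).le
      have h4 : 1 ≤ √N * √(qf p f) := by
        calc 1 = √N * (√N)⁻¹ := e1.symm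
          _ ≤ _ := mul_le_mul_of_nonneg_left h3 ht0.le
      nlinarith
  cases d with
  | u f => exact gap f _ (Or.inl rfl)
  | ph f => exact gap f _ (Or.inr rfl)
  | re c =>
    refine (leg_le h hS hp hξ hn hK (.re c) (by simp)).trans ?_
    simp only [cA, mul_one]; nlinarith
  | im c =>
    refine (leg_le h hS hp hξ hn hK (.im c) (by simp)).trans ?_
    simp only [cA, mul_one]; nlinarith
  | al k =>
    simp only [cA]
    split_ifs with hk
    · refine (h.b4 R m S hS p hp j ξ hξ k).trans ?_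
      rw [hk, hb, abs_zero, zero_add, hl.hi, ey]
      have h3 : ‖ξ‖ / y ≤ (√N * √y) / y := by
        refine div_le_div_of_nonneg_right ?_ hy0.le
        nlinarith
      calc K * (‖ξ‖ / y) ≤ K * ((√N * √y) / y) := mul_le_mul_of_nonneg_left h3 hK0
        _ ≤ 2 * (K * ((√N * √y) / y)) := by
            have : 0 ≤ K * ((√N * √y) / y) := by positivity
            linarith
        _ = _ := by ring
    · refine (leg_le h hS hp hξ hn hK (.al k) (by simp)).trans ?_
      rw [mul_assoc, e1]; linarith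
  | eul k =>
    refine (h.b5 R m S hS p hp j ξ hξ k).trans ?_
    simp only [cA]
    split_ifs with hk
    · rw [hk, hl.hi]
      have h3 : ‖ξ‖ / y ≤ √N * (√N / y) := by
        rw [mul_div_assoc', Real.mul_self_sqrt hN0.le]
        exact div_le_div_of_nonneg_right (hn.trans hl.one_le) hy0.le
      calc K * (‖ξ‖ / y) ≤ K * (√N * (√N / y)) := mul_le_mul_of_nonneg_left h3 hK0
        _ ≤ 2 * (K * (√N * (√N / y))) := by
            have : 0 ≤ K * (√N * (√N / y)) := by positivity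
            linarith
        _ = _ := by ring
    · rw [mul_assoc, e1, mul_one]
      have h3 : ‖ξ‖ / p.2.2.1 k ≤ 1 := by
        rw [div_le_one (hl.pos k)]; exact hn.trans (hy1 k)
      nlinarith

/-- classes constant on the pairs and zero on the pair `i` -/
theorem ann_a2 (h : LB Θ K N₀) (hS : FarOk R S) (hp : Adm R m S N₀ p) (hξ : IsCl ξ)
    (hn : ‖ξ‖ ≤ 1) (hb : ∀ k, bt ξ k = 0) (h0 : xe ξ i = 0) (hK : 1 ≤ K)
    (hl : Len i N y p) (d : Fd R m) :
    |leg R m Θ S j ξ p (d.v p)| ≤ (3 * K) * (√N)⁻¹ * cA i N y p d := by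
  have hN0 : 0 < N := zero_lt_one.trans_le hl.one_le
  have hy0 : 0 < y := hN0.trans_le hl.le
  have ht : 1 ≤ √N := by rw [Real.one_le_sqrt]; exact hl.one_le
  have hr : √N ≤ √y := Real.sqrt_le_sqrt hl.le
  have hr1 : 1 ≤ √y := ht.trans hr
  have ht0 : 0 < √N := by linarith
  have hr0 : 0 < √y := by linarith
  have hK0 : 0 ≤ K := by linarith
  have hi0 : 0 ≤ (√N)⁻¹ := by positivity
  have hi1 : (√N)⁻¹ ≤ 1 := inv_le_one_of_one_le₀ ht
  have hy1 : ∀ k, 1 ≤ p.2.2.1 k := fun k => hl.one_le.trans (hl.ge k)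
  have e2 : (√N)⁻¹ * (√N)⁻¹ = 1 / N := by
    rw [← mul_inv, Real.mul_self_sqrt hN0.le, one_div]
  have hw : ww ξ p.2.2.1 ≤ 3 / N := ww_le_two hn hN0 h0 fun k hk => (hl.ho k hk).ge
  have hw0 : 0 ≤ ww ξ p.2.2.1 := ww_nonneg ξ hl.pos
  obtain ⟨h1, h2⟩ := h.b6 R m S hS p hp j ξ hξ hb
  have key : ∀ c : ℝ, (√N)⁻¹ ≤ c → K * ww ξ p.2.2.1 ≤ (3 * K) * (√N)⁻¹ * c := by
    intro c hc
    calc K * ww ξ p.2.2.1 ≤ K * (3 / N) := mul_le_mul_of_nonneg_left hw hK0
      _ = (3 * K) * ((√N)⁻¹ * (√N)⁻¹) := by rw [e2]; ring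
      _ ≤ (3 * K) * ((√N)⁻¹ * c) :=
        mul_le_mul_of_nonneg_left (mul_le_mul_of_nonneg_left hc hi0) (by positivity)
      _ = _ := by ring
  have gap : ∀ (f : (W R m).Fr) (d : (W R m).Dir R.Cm), (d = .u f ∨ d = .ph f) →
      |leg R m Θ S j ξ p ((W R m).vec d)| ≤ (3 * K) * (√N)⁻¹ * √(qf p f) := by
    intro f d hd
    have hdy : ∀ k, d ≠ .y k := by rcases hd with rfl | rfl <;> simp
    have hq0 := qf_pos hy1 f
    by_cases hk : (W R m).nk f.1 = i
    · have c1 := h.b2 R m S hS p hp j ξ hξ f d hd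
      have c2 := h1 d hdy
      rw [hk, hb, abs_zero, zero_add] at c1
      have h3 : 1 / p.2.2.1 i ≤ qf p f := by
        have := le_max_right (Real.exp (-p.1 f)) (1 / p.2.2.1 ((W R m).nk f.1))
        rw [hk] at this
        rw [qf, hk]; exact this
      have h4 : Real.exp (-p.1 f) ≤ qf p f := le_max_left _ _
      have h8 : 0 ≤ 1 / p.2.2.1 i + Real.exp (-p.1 f) := by
        have := hl.pos i; positivity
      have c3 : |leg R m Θ S j ξ p ((W R m).vec d)| ≤ (2 * K) * qf p f := by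
        refine c1.trans ?_
        calc K * (‖ξ‖ * (1 / p.2.2.1 i + Real.exp (-p.1 f)))
            ≤ K * (1 * (1 / p.2.2.1 i + Real.exp (-p.1 f))) :=
              mul_le_mul_of_nonneg_left (mul_le_mul_of_nonneg_right hn h8) hK0
          _ ≤ K * (2 * qf p f) := mul_le_mul_of_nonneg_left (by linarith) hK0
          _ = (2 * K) * qf p f := by ring
      have c4 : |leg R m Θ S j ξ p ((W R m).vec d)| ≤ (3 * K) * (1 / N) := by
        refine c2.trans ((mul_le_mul_of_nonneg_left hw hK0).trans (le_of_eq (by ring)))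
      refine abs_le_of_sq_le_sq' ?_ (by positivity) |>.2
      rw [mul_pow, mul_pow, Real.sq_sqrt hq0.le]
      have e3 : (√N)⁻¹ ^ 2 = 1 / N := by rw [pow_two, e2]
      rw [e3]
      calc |leg R m Θ S j ξ p ((W R m).vec d)| ^ 2
          = |leg R m Θ S j ξ p ((W R m).vec d)| * |leg R m Θ S j ξ p ((W R m).vec d)| := sq _
        _ ≤ ((2 * K) * qf p f) * ((3 * K) * (1 / N)) :=
            mul_le_mul c3 c4 (abs_nonneg _) (by positivity)
        _ ≤ ((3 * K) * qf p f) * ((3 * K) * (1 / N)) := by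
            refine mul_le_mul_of_nonneg_right (mul_le_mul_of_nonneg_right (by linarith) hq0.le) ?_
            positivity
        _ = (3 * K) ^ 2 * (1 / N) * qf p f := by ring
    · exact (h1 d hdy).trans (key _ (inv_sqrt_le_sqrt_qf (p := p) hN0 f (hl.pos _) (hl.ho _ hk).le))
  cases d with
  | u f => exact gap f _ (Or.inl rfl)
  | ph f => exact gap f _ (Or.inr rfl)
  | re c => exact (h1 (.re c) (by simp)).trans (key _ hi1)
  | im c => exact (h1 (.im c) (by simp)).trans (key _ hi1)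
  | al k =>
    simp only [cA]
    split_ifs with hk
    · refine (h.b4 R m S hS p hp j ξ hξ k).trans ?_
      rw [hb, abs_zero, zero_add, hk, hl.hi]
      have h3 : ‖ξ‖ / y ≤ (√N)⁻¹ * (√y)⁻¹ := by
        rw [div_le_iff₀ hy0]
        have h4 : (√N)⁻¹ * (√y)⁻¹ * y = (√N)⁻¹ * √y := by
          calc (√N)⁻¹ * (√y)⁻¹ * y = (√N)⁻¹ * (√y)⁻¹ * (√y * √y) := by
                rw [Real.mul_self_sqrt hy0.le]
            _ = (√N)⁻¹ * √y := by field_simp
        rw [h4]
        refine hn.trans ?_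
        rw [mul_comm, ← div_eq_mul_inv, le_div_iff₀ ht0, one_mul]
        exact hr
      calc K * (‖ξ‖ / y) ≤ K * ((√N)⁻¹ * (√y)⁻¹) := mul_le_mul_of_nonneg_left h3 hK0
        _ ≤ 3 * (K * ((√N)⁻¹ * (√y)⁻¹)) := by
            have : 0 ≤ K * ((√N)⁻¹ * (√y)⁻¹) := by positivity
            linarith
        _ = _ := by ring
    · exact (h1 (.al k) (by simp)).trans (key _ le_rfl)
  | eul k =>
    refine (h2 k).trans ?_
    simp only [cA]
    split_ifs with hk
    · rw [hk, hl.hi]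
      have h3 : mn p.2.2.1 / y ≤ N / y := div_le_div_of_nonneg_right hl.mn_le_N hy0.le
      have h4 : 0 ≤ mn p.2.2.1 / y := div_nonneg (mn_nonneg hl.pos) hy0.le
      calc K * (ww ξ p.2.2.1 * (mn p.2.2.1 / y)) ≤ K * ((3 / N) * (N / y)) :=
            mul_le_mul_of_nonneg_left (mul_le_mul hw h3 h4 (by positivity)) hK0
        _ = (3 * K) * (√N)⁻¹ * (√N / y) := by
            field_simp
    · refine le_trans ?_ (key _ le_rfl)
      refine mul_le_mul_of_nonneg_left (mul_le_of_le_one_right hw0 ?_) hK0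
      rw [div_le_one (hl.pos k)]
      exact mn_le _ k

end Legs

end Vale.Agent.P273.H975
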