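import Vale.Agent.P273.H573.Skel
import Vale.Agent.P273.H975.Legs

/-!
# P273, LIM-BD: the bounds of the full form at the admissible points

Classes of the frames of the pairs, F-legs, the wedge (422), separation, product of the costs.
-/

set_option linter.unusedSectionVars false
set_option linter.unusedSimpArgs false

noncomputable section

namespace Vale.Agent.P273.H975

open H95 H732 H973 H562 Filter Set
open scoped Topology ContDiff

/-! ### classes -/

/-- `col4 0 - col4 2` -/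
def dmc : Fin 6 → ℝ := ![0, -1, -1, -1, -1, 0]

/-- the class of the pair 1 -/
def fmc : Fin 6 → ℝ := ![0, 0, 1, 1, 0, 0]

/-- the classes of the frame of the pair `i` -/
def clb (i : Fin 3) (k : Fin 4) : Fin 6 → ℝ :=
  ![![col4 0, col4 1, col4 2, col4 3], ![col4 2, fmc, dmc, col4 3],
    ![col4 2, col4 3, col4 0, col4 1]] i k

theorem isCl_col (a : Fin 4) : IsCl (col4 a) := by
  unfold IsCl
  fin_cases a <;> simp [Fin.sum_univ_succ, col4, Fin.succ] <;> norm_num

theorem isCl_dmc : IsCl dmc := by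
  unfold IsCl
  simp [Fin.sum_univ_succ, dmc, Fin.succ]; norm_num

theorem isCl_fmc : IsCl fmc := by
  unfold IsCl
  simp [Fin.sum_univ_succ, fmc, Fin.succ]; norm_num

theorem isCl_clb : ∀ (i : Fin 3) (k : Fin 4), IsCl (clb i k)
  | 0, 0 => isCl_col 0 | 0, 1 => isCl_col 1 | 0, 2 => isCl_col 2 | 0, 3 => isCl_col 3
  | 1, 0 => isCl_col 2 | 1, 1 => isCl_fmc | 1, 2 => isCl_dmc | 1, 3 => isCl_col 3
  | 2, 0 => isCl_col 2 | 2, 1 => isCl_col 3 | 2, 2 => isCl_col 0 | 2, 3 => isCl_col 1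

theorem norm_col_le (a : Fin 4) : ‖col4 a‖ ≤ 1 := by
  rw [pi_norm_le_iff_of_nonneg zero_le_one]
  intro k
  fin_cases a <;> fin_cases k <;> simp [col4]

theorem norm_dmc_le : ‖dmc‖ ≤ 1 := by
  rw [pi_norm_le_iff_of_nonneg zero_le_one]
  intro k
  fin_cases k <;> simp [dmc]

theorem norm_fmc_le : ‖fmc‖ ≤ 1 := by
  rw [pi_norm_le_iff_of_nonneg zero_le_one]
  intro k
  fin_cases k <;> simp [fmc]

theorem norm_clb_le : ∀ (i : Fin 3) (k : Fin 4), ‖clb i k‖ ≤ 1
  | 0, 0 => norm_col_le 0 | 0, 1 => norm_col_le 1 | 0, 2 => norm_col_le 2 | 0, 3 => norm_col_le 3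
  | 1, 0 => norm_col_le 2 | 1, 1 => norm_fmc_le | 1, 2 => norm_dmc_le | 1, 3 => norm_col_le 3
  | 2, 0 => norm_col_le 2 | 2, 1 => norm_col_le 3 | 2, 2 => norm_col_le 0 | 2, 3 => norm_col_le 1

/-- the second and the fourth class are constant on the pairs -/
theorem bt_clb_one (i k : Fin 3) : bt (clb i 1) k = 0 := by
  fin_cases i <;> fin_cases k <;> simp [bt, clb, col4, fmc]

theorem bt_clb_three (i k : Fin 3) : bt (clb i 3) k = 0 := by
  fin_cases i <;> fin_cases k <;> simp [bt, clb, col4, fmc]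

theorem bt_clb_two (i : Fin 3) : bt (clb i 2) i = 0 := by
  fin_cases i <;> simp [bt, clb, col4, dmc]

theorem xe_clb_one (i l : Fin 3) (h : l ≠ i) : xe (clb i 1) l = 0 := by
  fin_cases i <;> fin_cases l <;> first | exact absurd rfl h | simp [xe, clb, col4, fmc]

theorem xe_clb_three (i : Fin 3) : xe (clb i 3) i = 0 := by
  fin_cases i <;> simp [xe, clb, col4]

section Leg

variable {R : H95.Region} {m : ∀ k, Fin (R.n k + 1)}

theorem leg_add (Θ : Gauge) (S : L → Bool) (j : L) {ξ ζ : Fin 6 → ℝ} (hξ : IsCl ξ) (hζ : IsCl ζ)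
    (p v : Co R m) : leg R m Θ S j (ξ + ζ) p v = leg R m Θ S j ξ p v + leg R m Θ S j ζ p v := by
  simp only [leg, Θ.add j ξ ζ S _ _ hξ hζ]
  rfl

theorem leg_const (Θ : Gauge) (S : L → Bool) (j : L) (p v : Co R m) :
    leg R m Θ S j (fun _ => 1) p v = 0 := by
  simp only [leg, Θ.const]
  rfl

theorem isCl_add {ξ ζ : Fin 6 → ℝ} (hξ : IsCl ξ) (hζ : IsCl ζ) : IsCl (ξ + ζ) := by
  unfold IsCl at *
  simp only [Pi.add_apply, mul_add, Finset.sum_add_distrib, hξ, hζ, add_zero]

theorem leg_dmc (Θ : Gauge) (S : L → Bool) (j : L) (p v : Co R m) :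
    leg R m Θ S j (col4 0) p v - leg R m Θ S j (col4 2) p v = leg R m Θ S j dmc p v := by
  have h : col4 0 = dmc + col4 2 := by
    funext k; fin_cases k <;> simp [col4, dmc]
  rw [h, leg_add Θ S j isCl_dmc (isCl_col 2)]
  ring

theorem leg_fmc (Θ : Gauge) (S : L → Bool) (j : L) (p v : Co R m) :
    leg R m Θ S j (col4 1) p v + leg R m Θ S j (col4 3) p v = -leg R m Θ S j fmc p v := by
  have h : (fun _ => 1 : Fin 6 → ℝ) = col4 1 + col4 3 + fmc := by
    funext k; fin_cases k <;> simp [col4, fmc]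
  have h1 := leg_const (m := m) Θ S j p v
  rw [h, leg_add Θ S j (isCl_add (isCl_col 1) (isCl_col 3)) isCl_fmc,
    leg_add Θ S j (isCl_col 1) (isCl_col 3)] at h1
  linarith

/-- the coordinates in the frame of the pair `i` are the legs of the classes `clb i` -/
theorem abs_crd (Θ : Gauge) (S : L → Bool) (p v : Co R m) (a : Fin 14) (i : Fin 3) (k : Fin 4) :
    |H422.crd i (thp Θ S p a v) k| = |leg R m Θ S (mrk a) (clb i k) p v| := by
  have h : ∀ b : Fin 4, thp Θ S p a v b = leg R m Θ S (mrk a) (col4 b) p v := fun _ => rfl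
  fin_cases i
  · fin_cases k
    · exact congrArg _ (h 0)
    · exact congrArg _ (h 1)
    · exact congrArg _ (h 2)
    · exact congrArg _ (h 3)
  · fin_cases k
    · exact congrArg _ (h 2)
    · change |thp Θ S p a v 1 + thp Θ S p a v 3| = |leg R m Θ S (mrk a) fmc p v|
      rw [h, h, leg_fmc, abs_neg]
    · change |thp Θ S p a v 0 - thp Θ S p a v 2| = |leg R m Θ S (mrk a) dmc p v|
      rw [h, h, leg_dmc]
    · exact congrArg _ (h 3)
  · fin_cases k
    · exact congrArg _ (h 2)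
    · exact congrArg _ (h 3)
    · exact congrArg _ (h 0)
    · exact congrArg _ (h 1)

theorem leg_neg (Θ : Gauge) (S : L → Bool) (j : L) (ξ : Fin 6 → ℝ) (p v : Co R m) :
    |leg R m Θ S j ξ p (-v)| = |leg R m Θ S j ξ p v| := by
  rw [map_neg, abs_neg]

/-! ### the lengths of the directions -/

theorem card_gap_pos : (0 : ℝ) < Fintype.card R.Gap := card_pos (⟨0, 0⟩ : R.Gap)

theorem exp_neg_div_le {x y : ℝ} (hx : 0 < x) (hy : 0 < y) : Real.exp (-(y / x)) ≤ x / y := by
  have h1 : y / x ≤ Real.exp (y / x) := (by linarith [Real.add_one_le_exp (y / x)])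
  have h2 : 0 < y / x := div_pos hy hx
  rw [Real.exp_neg]
  calc (Real.exp (y / x))⁻¹ ≤ (y / x)⁻¹ := inv_anti₀ h2 h1
    _ = x / y := inv_div y x

/-- the last gap of a long neck -/
theorem exp_ul_le' {p : Co R m} (hp : (W R m).Inr p) (hy : ∀ k, 0 < p.2.2.1 k) (k : Fin 3) :
    Real.exp (-(W R m).ul p k) ≤ Fintype.card R.Gap / p.2.2.1 k := by
  refine le_trans ?_ (exp_neg_div_le card_gap_pos (hy k))
  rw [Real.exp_le_exp, neg_le_neg_iff, div_le_iff₀ card_gap_pos, mul_comm]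
  exact (W R m).y_le hp k (hy k).le

theorem ul_nonneg' {p : Co R m} (hp : (W R m).Inr p) (hy : ∀ k, 0 < p.2.2.1 k) (k : Fin 3) :
    0 ≤ (W R m).ul p k := (W R m).ul_nonneg hp k (hy k).le

theorem exp_le_sqrt_qf {p : Co R m} (hp : (W R m).Inr p) (f : (W R m).Fr) :
    Real.exp (-p.1 f) ≤ √(qf p f) := by
  have h0 : 0 ≤ p.1 f := hp.1 f
  have h1 : Real.exp (-p.1 f) ≤ √(Real.exp (-p.1 f)) := by
    refine Real.le_sqrt_of_sq_le ?_
    rw [sq, ← Real.exp_add]
    exact Real.exp_le_exp.2 (by linarith)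
  exact h1.trans (Real.sqrt_le_sqrt (le_max_left _ _))

variable {i : Fin 3} {N y : ℝ}

/-- **the costs bound the F-side** -/
theorem norm_dpsi_v_le {p : Co R m} (hp : (W R m).Inr p) (hl : Len i N y p) (d : Fd R m) :
    ‖(W R m).dpsi p (d.v p)‖ ≤ Fintype.card R.Gap * cA i N y p d := by
  have hN0 : 0 < N := zero_lt_one.trans_le hl.one_le
  have hy0 : 0 < y := hN0.trans_le hl.le
  have hG : (1 : ℝ) ≤ Fintype.card R.Gap := by
    have := card_gap_pos (R := R)
    exact_mod_cast (Nat.one_le_cast.2 (Nat.cast_pos.1 this) : (1 : ℝ) ≤ _)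
  have hG0 := card_gap_pos (R := R)
  have key : ∀ {a b : ℝ}, a ≤ b → 0 ≤ b → a ≤ Fintype.card R.Gap * b := fun h1 h2 =>
    h1.trans (le_mul_of_one_le_left h2 hG)
  have sq1 : ∀ {x : ℝ}, 1 ≤ x → 1 / x ≤ (√x)⁻¹ := fun {x} hx => by
    have h1 : 0 < √x := Real.sqrt_pos.2 (by linarith)
    rw [one_div]
    refine inv_anti₀ h1 ?_
    rw [Real.sqrt_le_left (by linarith)]
    nlinarith
  cases d with
  | u f =>
    exact key (((W R m).norm_dpsi_vec_le hp (.u f)).trans (exp_le_sqrt_qf hp f))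
      (Real.sqrt_nonneg _)
  | ph f =>
    exact key (((W R m).norm_dpsi_vec_le hp (.ph f)).trans (exp_le_sqrt_qf hp f))
      (Real.sqrt_nonneg _)
  | re c => exact key ((W R m).norm_dpsi_vec_le hp (.re c)) zero_le_one
  | im c => exact key ((W R m).norm_dpsi_vec_le hp (.im c)) zero_le_one
  | al k =>
    refine ((W R m).norm_dpsi_vec_le hp (.al k)).trans ?_
    refine (exp_ul_le' hp hl.pos k).trans ?_
    rw [div_eq_mul_one_div]
    refine mul_le_mul_of_nonneg_left ?_ hG0.le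
    simp only [cA]
    split_ifs with hk
    · rw [hk, hl.hi]; exact sq1 (hl.one_le.trans hl.le)
    · rw [hl.ho k hk]; exact sq1 hl.one_le
  | eul k =>
    refine ((W R m).norm_dpsi_eul_le' hp (hl.pos k) (ul_nonneg' hp hl.pos)).trans ?_
    refine mul_le_mul_of_nonneg_left ?_ hG0.le
    simp only [cA]
    rw [← one_div]
    split_ifs with hk
    · rw [hk, hl.hi]
      refine div_le_div_of_nonneg_right ?_ hy0.le
      rw [Real.one_le_sqrt]; exact hl.one_le
    · rw [hl.ho k hk]; exact sq1 hl.one_le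

end Leg

end Vale.Agent.P273.H975
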