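import Vale.Agent.P273.H975.Bd1

/-!
# P273, LIM-BD: the bounds of the integrand at the admissible points
-/

set_option linter.unusedSectionVars false
set_option linter.unusedSimpArgs false

noncomputable section

namespace Vale.Agent.P273.H975

open H95 H732 H973 H562 Filter Set
open scoped Topology ContDiff

theorem exp_small : Real.exp (-100) < 1 / 64 := by
  have h1 : (101 : ℝ) ≤ Real.exp 100 := by
    have := Real.add_one_le_exp (100 : ℝ); linarith
  rw [Real.exp_neg, inv_eq_one_div]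
  exact one_div_lt_one_div_of_lt (by norm_num) (by linarith)

/-- a frame given by directions up to sign -/
def Frm {R : Region} {m : ∀ k, Fin (R.n k + 1)} {n : ℕ} (p : Co R m) (d : Fin n → Fd R m)
    (w : Fin n → Co R m) : Prop := ∀ l, w l = (d l).v p ∨ w l = -(d l).v p

/-- **the F-side on one region** -/
theorem exists_F1 (X : Ext) {δ : ℝ} (hδ : 0 < δ) (R : Region) (m : ∀ k, Fin (R.n k + 1))
    (S : L → Bool) (hS : FarOk R S) :
    ∃ A, 0 ≤ A ∧ ∀ p : Co R m, Adm R m S 100 p → SepP R δ S (emb R m p) →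
      ∀ (i : Fin 3) (N y : ℝ), Len i N y p → ∀ (d : Fin 16 → Fd R m) (w : Fin 16 → Co R m),
        Frm p d w → |H573.FR R m X S p w| ≤ A * ∏ l, cA i N y p (d l) := by
  have hy : Real.exp (-100) < 1 / 16 := exp_small.trans (by norm_num)
  have hZ : ZoneOK R S (Real.exp (-100) / 256) (zone R S (1 / 64) 11) := by
    refine zoneOK le_rfl ?_ ?_ (by norm_num)
    · have := exp_small; linarith
    · have := exp_small; norm_num at this ⊢; linarith
  obtain ⟨c, h0, hc⟩ := exists_majorant_frame_FW m X hS (isCompact_zone S (1 / 64) 11) hy hZ hδ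
  refine ⟨c * (Fintype.card R.Gap : ℝ) ^ 16, by positivity, ?_⟩
  intro p hp hsep i N y hl d w hw
  have h1 : (wreg R.n m).psi p ∈ KS R S 100 δ (zone R S (1 / 64) 11) :=
    psi_mem_KS m hp.1 (by norm_num) hp.2.1 hp.2.2.2.1 hsep
  have h2 : ∀ l, ‖(W R m).dpsi p (w l)‖ ≤ Fintype.card R.Gap * cA i N y p (d l) := by
    intro l
    rcases hw l with h | h
    · rw [h]; exact norm_dpsi_v_le hp.1 hl (d l)
    · rw [h, map_neg, norm_neg]; exact norm_dpsi_v_le hp.1 hl (d l)
  calc |H573.FR R m X S p w| ≤ c * ∏ l, ‖(W R m).dpsi p (w l)‖ := hc p h1 w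
    _ ≤ c * ∏ l, (Fintype.card R.Gap * cA i N y p (d l)) :=
        mul_le_mul_of_nonneg_left (Finset.prod_le_prod (fun l _ => norm_nonneg _)
          fun l _ => h2 l) h0
    _ = c * (Fintype.card R.Gap : ℝ) ^ 16 * ∏ l, cA i N y p (d l) := by
        rw [Finset.prod_mul_distrib, Finset.prod_const, Finset.card_univ, Fintype.card_fin]
        ring

/-- **the F-side, one constant for all regions** -/
theorem exists_F (X : Ext) {δ : ℝ} (hδ : 0 < δ) :
    ∃ A, 0 ≤ A ∧ ∀ (R : Region) (m : ∀ k, Fin (R.n k + 1)) (S : L → Bool), FarOk R S →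
      ∀ p : Co R m, Adm R m S 100 p → SepP R δ S (emb R m p) →
      ∀ (i : Fin 3) (N y : ℝ), Len i N y p → ∀ (d : Fin 16 → Fd R m) (w : Fin 16 → Co R m),
        Frm p d w → |H573.FR R m X S p w| ≤ A * ∏ l, cA i N y p (d l) := by
  classical
  choose A1 h0 h1 using fun (R : Region) (m : ∀ k, Fin (R.n k + 1)) (S : L → Bool)
    (hS : FarOk R S) => exists_F1 X hδ R m S hS
  let f : (Σ R : Region, (∀ k, Fin (R.n k + 1)) × (L → Bool)) → ℝ := fun x =>
    if h : FarOk x.1 x.2.2 then A1 x.1 x.2.1 x.2.2 h else 0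
  obtain ⟨A, hA⟩ := (Set.finite_range f).bddAbove
  refine ⟨max A 0, le_max_right _ _, ?_⟩
  intro R m S hS p hp hsep i N y hl d w hw
  refine (h1 R m S hS p hp hsep i N y hl d w hw).trans ?_
  refine mul_le_mul_of_nonneg_right ?_ (Finset.prod_nonneg fun l _ => cA_nonneg i
    ((zero_le_one.trans hl.one_le).trans hl.le) p _)
  have h2 : f ⟨R, m, S⟩ = A1 R m S hS := dif_pos hS
  rw [← h2]
  exact (hA (Set.mem_range_self _)).trans (le_max_left _ _)

/-- the data of the bounds -/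
structure Dat (X : Ext) (Θ : Gauge) (A K δ N₀ : ℝ) : Prop where
  hA : 0 ≤ A
  hK : 1 ≤ K
  hN : 100 ≤ N₀
  lb : LB Θ K N₀
  F : ∀ (R : Region) (m : ∀ k, Fin (R.n k + 1)) (S : L → Bool), FarOk R S →
      ∀ p : Co R m, Adm R m S N₀ p → SepP R δ S (emb R m p) →
      ∀ (i : Fin 3) (N y : ℝ), Len i N y p → ∀ (d : Fin 16 → Fd R m) (w : Fin 16 → Co R m),
        Frm p d w → |H573.FR R m X S p w| ≤ A * ∏ l, cA i N y p (d l)
  sep : ∀ (R : Region) (m : ∀ k, Fin (R.n k + 1)) (S : L → Bool), FarOk R S →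
      ∀ p : Co R m, Adm R m S N₀ p → ∀ T : MT, SymT T → H573.OmR R m X Θ T S p ≠ 0 →
      SepP R δ S (emb R m p)

theorem exists_dat (X : Ext) {κ : Fin 3 → Fin 3 → ℝ} {Θ : Gauge} (h : Asy κ Θ) :
    ∃ A K δ N₀, Dat X Θ A K δ N₀ := by
  obtain ⟨K, N1, hK, hN1, lb⟩ := exists_LB h
  obtain ⟨δ, N2, hδ, hcol⟩ := h.col
  obtain ⟨A, hA, hF⟩ := exists_F X hδ
  set N₀ := max N1 (max N2 100) with hN
  have l1 : N1 ≤ N₀ := le_max_left _ _
  have l2 : N2 ≤ N₀ := (le_max_left _ _).trans (le_max_right _ _)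
  have l3 : 100 ≤ N₀ := (le_max_right _ _).trans (le_max_right _ _)
  refine ⟨A, K, δ, N₀, hA, hK, l3, ?_, ?_, ?_⟩
  · exact ⟨fun R m S hS p hp => lb.b1 R m S hS p (Adm.mono l1 hp),
      fun R m S hS p hp => lb.b2 R m S hS p (Adm.mono l1 hp),
      fun R m S hS p hp => lb.b4 R m S hS p (Adm.mono l1 hp),
      fun R m S hS p hp => lb.b5 R m S hS p (Adm.mono l1 hp),
      fun R m S hS p hp => lb.b6 R m S hS p (Adm.mono l1 hp)⟩
  · exact fun R m S hS p hp => hF R m S hS p (Adm.mono l3 hp)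
  · intro R m S hS p hp T hT hne
    have hp2 := Adm.mono l2 hp
    have key : ∀ a b : Fin 14, (∀ ξ, IsCl ξ → leg R m Θ S (mrk a) ξ p = leg R m Θ S (mrk b) ξ p) →
        H573.thR R m Θ S a p = H573.thR R m Θ S b p := by
      intro a b hab
      refine ContinuousLinearMap.ext fun v => funext fun c => ?_
      exact congrArg (fun l : Co R m →L[ℝ] ℝ => l v) (hab (col4 c) (isCl_col c))
    refine sep_of_wedge_ne hT (H573.FR R m X S p) (fun i => H573.thR R m Θ S i p) ?_ ?_ hne
    · intro a b hab ht hn hlt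
      exact key a b (hcol R m S hS p hp2 (mrk a) (mrk b) (fun h => hab (mrk_injective h)) ht
        (Or.inl ⟨hn, hlt⟩))
    · intro a b k ha hb ht hr hlt
      refine key a b (hcol R m S hS p hp2 (mrk a) (mrk b) (fun h => ?_) ht
        (Or.inr ⟨k, ha, hb, hr, hlt⟩))
      rw [h] at hr; exact lt_irrefl _ hr

section Main

variable {X : Ext} {Θ : Gauge} {A K δ N₀ : ℝ} {R : Region} {m : ∀ k, Fin (R.n k + 1)}
  {S : L → Bool} {p : Co R m} {T : MT} {N y : ℝ}

theorem mem_ML_iff (x : H4) : H573.pA x = 0 ↔ x ∈ H422.ML := by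
  constructor
  · intro h
    exact ⟨by simpa [H573.pA] using congrFun h 1, by simpa [H573.pA] using congrFun h 3⟩
  · rintro ⟨h1, h3⟩
    funext k
    fin_cases k <;> simp [H573.pA, h1, h3]

theorem kill_of_wt {n : ℕ} (h : H573.WtT n T) : H422.Kill T n := by
  classical
  intro x hx
  refine h x (hx.trans (le_of_eq ?_))
  congr 1
  ext j
  simp only [Finset.mem_filter, Finset.mem_univ, true_and, mem_ML_iff]

theorem abs_leg_frm {n : ℕ} {d : Fin n → Fd R m} {w : Fin n → Co R m} (hw : Frm p d w) (l : Fin n)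
    (j : L) (ξ : Fin 6 → ℝ) : |leg R m Θ S j ξ p (w l)| = |leg R m Θ S j ξ p ((d l).v p)| := by
  rcases hw l with h | h
  · rw [h]
  · rw [h, leg_neg]

/-- **the bound on the annuli at the admissible points** -/
theorem Dat.ann (D : Dat X Θ A K δ N₀) (hT : SymT T) (i : Fin 3) (hk : H422.Kill T 8)
    (hs : ∀ x : Fin 14 → H4, T (fun j => sH (H422.ix i) (x j)) = T x) (hS : FarOk R S)
    (hp : Adm R m S N₀ p) (hl : Len i N y p) {d : Fin (16 + 14) → Fd R m}
    {w : Fin (16 + 14) → Co R m} (hw : Frm p d w) :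
    |H573.OmR R m X Θ T S p w| ≤ |H422.KK 16 i T A (3 * K)| * ∏ l, cA i N y p (d l) := by
  have hN0 : 0 < N := zero_lt_one.trans_le hl.one_le
  have hy0 : 0 < y := hN0.trans_le hl.le
  have hc : ∀ l, 0 ≤ cA i N y p (d l) := fun l => cA_nonneg i hy0.le p _
  by_cases h0 : H573.OmR R m X Θ T S p = 0
  · rw [h0]
    have : (0 : Alt (16 + 14) (Co R m)) w = 0 := rfl
    rw [this, abs_zero]
    exact mul_nonneg (abs_nonneg _) (Finset.prod_nonneg fun l _ => hc l)
  have hsep := D.sep R m S hS p hp T hT h0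
  have hK := D.hK
  have h1 := H422.wedge_ann (m := 16) i (H573.FR R m X S p) hk hs
    (fun a => H573.thR R m Θ S a p) w (fun l => cA i N y p (d l)) hc (r := √y) (t := √N)
    (by rw [Real.one_le_sqrt]; exact hl.one_le) (Real.sqrt_le_sqrt hl.le) (A := A) (B := 3 * K) D.hA
    (fun I hI => D.F R m S hS p hp hsep i N y hl (fun l => d (I l)) (fun l => w (I l))
      fun l => hw (I l)) ?_ ?_ ?_ ?_
  · calc |H573.OmR R m X Θ T S p w| = ‖wedgeT (H573.FR R m X S p) T
          (fun a => H573.thR R m Θ S a p) w‖ := rfl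
      _ ≤ _ := h1
      _ ≤ _ := mul_le_mul_of_nonneg_right (le_abs_self _) (Finset.prod_nonneg fun l _ => hc l)
  · intro a l
    have e : |H422.crd i (H573.thR R m Θ S a p (w l)) 0| = _ := abs_crd Θ S p (w l) a i 0
    rw [e, abs_leg_frm hw]
    refine (ann_b1 D.lb hS hp (isCl_clb i 0) (norm_clb_le i 0) hK hl (d l)).trans ?_
    have : 0 ≤ K * √y * cA i N y p (d l) := by have := hc l; positivity
    linarith
  · intro a l
    have e : |H422.crd i (H573.thR R m Θ S a p (w l)) 1| = _ := abs_crd Θ S p (w l) a i 1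
    rw [e, abs_leg_frm hw]
    refine (ann_a1 D.lb hS hp (isCl_clb i 1) (norm_clb_le i 1) (bt_clb_one i)
      (xe_clb_one i) hK hl (d l)).trans ?_
    have : 0 ≤ K * (√y)⁻¹ * cA i N y p (d l) := by have := hc l; positivity
    linarith
  · intro a l
    have e : |H422.crd i (H573.thR R m Θ S a p (w l)) 2| = _ := abs_crd Θ S p (w l) a i 2
    rw [e, abs_leg_frm hw]
    refine (ann_b2 D.lb hS hp (isCl_clb i 2) (norm_clb_le i 2) (bt_clb_two i) hK hl (d l)).trans ?_
    have : 0 ≤ K * √N * cA i N y p (d l) := by have := hc l; positivity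
    linarith
  · intro a l
    have e : |H422.crd i (H573.thR R m Θ S a p (w l)) 3| = _ := abs_crd Θ S p (w l) a i 3
    rw [e, abs_leg_frm hw]
    exact ann_a2 D.lb hS hp (isCl_clb i 3) (norm_clb_le i 3) (bt_clb_three i)
      (xe_clb_three i) hK hl (d l)

theorem cT_eq_cA (p : Co R m) (d : Fd R m) : cT N p d = cA 0 N N p d := by
  cases d <;> simp only [cT, cA]
  · split_ifs <;> rfl
  · split_ifs
    · rw [Real.sqrt_div_self]
    · rfl

/-- **the bound on the tori at the admissible points** -/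
theorem Dat.tor (D : Dat X Θ A K δ N₀) (hT : SymT T) (hk : H422.Kill T 9) (hS : FarOk R S)
    (hp : Adm R m S N₀ p) (hN : 1 ≤ N) (hy : ∀ k, p.2.2.1 k = N) {d : Fin (16 + 14) → Fd R m}
    {w : Fin (16 + 14) → Co R m} (hw : Frm p d w) :
    |H573.OmR R m X Θ T S p w| ≤ |H422.KK 16 0 T A (3 * K)| * N * ∏ l, cT N p (d l) := by
  have hN0 : 0 < N := zero_lt_one.trans_le hN
  have hl : Len 0 N N p := ⟨hN, le_rfl, hy 0, fun k _ => hy k⟩
  have hc : ∀ l, 0 ≤ cT N p (d l) := fun l => cT_nonneg p _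
  by_cases h0 : H573.OmR R m X Θ T S p = 0
  · rw [h0]
    have : (0 : Alt (16 + 14) (Co R m)) w = 0 := rfl
    rw [this, abs_zero]
    exact mul_nonneg (mul_nonneg (abs_nonneg _) hN0.le) (Finset.prod_nonneg fun l _ => hc l)
  have hsep := D.sep R m S hS p hp T hT h0
  have hK := D.hK
  have h1 := H422.wedge_torus (m := 16) (H573.FR R m X S p) hk
    (fun a => H573.thR R m Θ S a p) w (fun l => cT N p (d l)) hc (t := √N)
    (by rw [Real.one_le_sqrt]; exact hN) (A := A) (B := 3 * K) D.hA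
    (fun I hI => by
      have := D.F R m S hS p hp hsep 0 N N hl (fun l => d (I l)) (fun l => w (I l))
        fun l => hw (I l)
      simpa only [cT_eq_cA] using this) ?_ ?_ ?_ ?_
  · rw [Real.sq_sqrt hN0.le] at h1
    calc |H573.OmR R m X Θ T S p w| = ‖wedgeT (H573.FR R m X S p) T
          (fun a => H573.thR R m Θ S a p) w‖ := rfl
      _ ≤ _ := h1
      _ ≤ _ := mul_le_mul_of_nonneg_right (mul_le_mul_of_nonneg_right (le_abs_self _) hN0.le)
          (Finset.prod_nonneg fun l _ => hc l)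
  · intro a l
    have e : |H422.crd 0 (H573.thR R m Θ S a p (w l)) 0| = _ := abs_crd Θ S p (w l) a 0 0
    have e' : |H573.thR R m Θ S a p (w l) 0| = |H422.crd 0 (H573.thR R m Θ S a p (w l)) 0| := rfl
    rw [e', e, abs_leg_frm hw]
    refine (tor_b D.lb hS hp (isCl_clb 0 0) (norm_clb_le 0 0) hK hN hy (d l)).trans ?_
    have : 0 ≤ K * √N * cT N p (d l) := by have := hc l; positivity
    linarith
  · intro a l
    have e : |H422.crd 0 (H573.thR R m Θ S a p (w l)) 1| = _ := abs_crd Θ S p (w l) a 0 1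
    have e' : |H573.thR R m Θ S a p (w l) 1| = |H422.crd 0 (H573.thR R m Θ S a p (w l)) 1| := rfl
    rw [e', e, abs_leg_frm hw]
    exact tor_a D.lb hS hp (isCl_clb 0 1) (norm_clb_le 0 1) (bt_clb_one 0) hK hN hy (d l)
  · intro a l
    have e : |H422.crd 0 (H573.thR R m Θ S a p (w l)) 2| = _ := abs_crd Θ S p (w l) a 0 2
    have e' : |H573.thR R m Θ S a p (w l) 2| = |H422.crd 0 (H573.thR R m Θ S a p (w l)) 2| := rfl
    rw [e', e, abs_leg_frm hw]
    refine (tor_b D.lb hS hp (isCl_clb 0 2) (norm_clb_le 0 2) hK hN hy (d l)).trans ?_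
    have : 0 ≤ K * √N * cT N p (d l) := by have := hc l; positivity
    linarith
  · intro a l
    have e : |H422.crd 0 (H573.thR R m Θ S a p (w l)) 3| = _ := abs_crd Θ S p (w l) a 0 3
    have e' : |H573.thR R m Θ S a p (w l) 3| = |H422.crd 0 (H573.thR R m Θ S a p (w l)) 3| := rfl
    rw [e', e, abs_leg_frm hw]
    exact tor_a D.lb hS hp (isCl_clb 0 3) (norm_clb_le 0 3) (bt_clb_three 0) hK hN hy (d l)

end Main

end Vale.Agent.P273.H975
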